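import Vale.Agent.P330.H838.Asm
import Vale.Agent.P330.Q.Final

/-!
# From a family of networks to the quasi-linear reduction

* `NNums`: numbers of the sites of a family of networks, polynomial time algorithms for the maps
  and the hard-wired bits on numbers;
* `obeys_of_sat`: an assignment which satisfies almost all gates obeys the network;
* `pcpq_of_net`: a sound network with quasi-linearly many sites and a decoder give `PCPforPPAD`.
-/

namespace Vale.Agent.P330.H838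

open Finset PCP.AR Vale.Agent.Lib.PolyTime

theorem QLin.pbd {f : EndOfLine → ℕ} (hf : QLin f) : PBd f := by
  obtain ⟨k, hk⟩ := hf
  have h1 : PBd (fun I : EndOfLine => len I) := PBd.esize
  have h2 : PBd (fun I : EndOfLine => k * len I * len I ^ k) := ((PBd.const k).mul h1).mul (h1.pow k)
  exact h2.mono fun I => (hk I).trans (Nat.mul_le_mul_left _ (Nat.pow_le_pow_left (lg_le_len I) k))

theorem QLog.pbd {f : EndOfLine → ℕ} (hf : QLog f) : PBd f := hf.qlin.pbd

theorem PT_len : PT ∅ len := PT.size PT.id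

theorem PT_lg : PT ∅ lg := PT_log PT_len

variable {Reg Rd CB : Type}

/-- Numbers for a family of networks. -/
structure NNums {Ω : EndOfLine → Type} (E : ∀ a, NSem Rd CB (Ω a)) where
  /-- the number of sites -/
  N : EndOfLine → ℕ
  ptN : PT ∅ N
  /-- numbers of the sites -/
  e : ∀ a, Ω a ≃ Fin (N a)
  /-- the maps of sites on numbers -/
  rdN : EndOfLine → Rd → ℕ → ℕ
  rdN_eq : ∀ a R ω, rdN a R (e a ω) = e a ((E a).rd R ω)
  rdN_pt : ∀ R, PT ∅ (fun q : EndOfLine × ℕ => rdN q.1 R q.2)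
  /-- the hard-wired bits -/
  cbN : EndOfLine → CB → ℕ → Bool
  cbN_eq : ∀ a κ ω, cbN a κ (e a ω) = (E a).cb κ ω
  cbN_pt : ∀ κ, PT ∅ (fun q : EndOfLine × ℕ => cbN q.1 κ q.2)

section

variable {Ω : EndOfLine → Type} {E : ∀ a, NSem Rd CB (Ω a)} (U : NNums E)

theorem NNums.rd_lt (a : EndOfLine) (R : Rd) (s : ℕ) (hs : s < U.N a) : U.rdN a R s < U.N a := by
  have h := U.rdN_eq a R ((U.e a).symm ⟨s, hs⟩)
  rw [Equiv.apply_symm_apply] at h
  exact lt_of_le_of_lt (le_of_eq h) (U.e a _).2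

theorem NNums.N_pos [∀ a, Nonempty (Ω a)] (a : EndOfLine) : 0 < U.N a :=
  lt_of_le_of_lt (Nat.zero_le _) (U.e a (Classical.arbitrary _)).2

variable [Fintype Reg] [Nonempty Reg] [Fintype CB] (defs : Reg → ND Reg Rd CB)

/-- The gates. -/
noncomputable def netGates (a : EndOfLine) : List Gate :=
  gatesL defs (U.N a) (U.rdN a) (U.cbN a)

/-- The number of nodes. -/
noncomputable def netNodes (a : EndOfLine) : ℕ := U.N a * KK defs

/-- The circuit. -/
noncomputable def netCirc [∀ a, Nonempty (Ω a)] (a : EndOfLine) : GenCircuit :=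
  circ defs (U.N a) (U.rdN a) (U.cbN a) (U.N_pos a) (U.rd_lt a)

theorem wfNet [∀ a, Nonempty (Ω a)] (a : EndOfLine) :
    WFNet (netNodes U defs a) (netGates U defs a) :=
  ⟨(netCirc U defs a).gates_ne, (netCirc U defs a).out_lt, (netCirc U defs a).ins_lt,
    (netCirc U defs a).out_nodup, (netCirc U defs a).params_mem⟩

/-- The value of the register `ρ` at the site `ω`. -/
noncomputable def regVal (xs : List ℚ) (a : EndOfLine) (ρ : Reg) (ω : Ω a) : ℝ :=
  val xs (U.e a ω * KK defs + root defs ρ)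

open Classical in
/-- **An assignment which satisfies almost all gates obeys the network.** -/
theorem obeys_of_sat [∀ a, Nonempty (Ω a)] [∀ a, Fintype (Ω a)] (hdefs : ∀ ρ, (defs ρ).Ok)
    {ε δ β : ℝ} (hε : ε < 1 / 2) (hβ : δ * KK defs ≤ β) (a : EndOfLine) (xs : List ℚ)
    (hx : ∀ r ∈ xs, 0 ≤ r ∧ r ≤ 1)
    (hsat : (1 - δ) * (netGates U defs a).length ≤
      ({g : Gate | g ∈ netGates U defs a ∧ g.Sat ε (val xs)}.ncard : ℝ)) :
    NObeys (E a) defs ε β (regVal U defs xs a) := by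
  set K := KK defs with hK
  set G := netCirc U defs a with hG
  have hnodes : G.nodes = U.N a * K := rfl
  -- the assignment of the right length
  set y : List ℚ := (List.range G.nodes).map fun v => xs.getD v 0 with hy
  have hval : ∀ v < G.nodes, val y v = val xs v := fun v hv => val_map_range _ _ hv
  have hyA : IsAssignment G y := by
    refine ⟨by simp [hy], fun r hr => ?_⟩
    obtain ⟨v, _, rfl⟩ := List.mem_map.1 hr
    have h := Q.val_mem hx v
    unfold val at h
    exact ⟨by exact_mod_cast h.1, by exact_mod_cast h.2⟩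
  have hsatG : ∀ g ∈ G.gates, (g.Sat ε (val y) ↔ g.Sat ε (val xs)) := fun g hg =>
    sat_congr g (hval _ (G.out_lt g hg)) fun b hb => hval _ (G.ins_lt g hg b hb)
  have hnum : numSat ε G y =
      {g : Gate | g ∈ netGates U defs a ∧ g.Sat ε (val xs)}.ncard := by
    unfold numSat
    congr 1
    ext g
    exact ⟨fun h => ⟨h.1, (hsatG g h.1).1 h.2⟩, fun h => ⟨h.1, (hsatG g h.1).2 h.2⟩⟩
  have hsat' : (1 - δ) * G.gates.length ≤ numSat ε G y := by
    rw [hnum]
    exact hsat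
  obtain ⟨h1, h2⟩ := circ_obeys defs (U.N a) (U.rdN a) (U.cbN a) (E a) (fun ω => (U.e a ω : ℕ))
    (fun ω ω' h => (U.e a).injective (Fin.ext h)) (fun ω => (U.e a ω).2)
    (fun R ω => U.rdN_eq a R ω) (fun κ ω => U.cbN_eq a κ ω) (U.N_pos a) (U.rd_lt a)
    hε hdefs y hyA hsat'
  -- the values of the registers are the same
  have hroot : ∀ (ρ : Reg) (ω : Ω a),
      val y (U.e a ω * K + root defs ρ) = regVal U defs xs a ρ ω := by
    intro ρ ω
    refine hval _ ?_
    rw [hnodes]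
    have h3 := (U.e a ω).2
    have h4 := root_lt defs ρ
    calc (U.e a ω : ℕ) * K + root defs ρ < (U.e a ω : ℕ) * K + K := by omega
      _ = ((U.e a ω : ℕ) + 1) * K := by ring
      _ ≤ U.N a * K := Nat.mul_le_mul_right _ h3
  have hfun : (fun (ρ' : Reg) (ω' : Ω a) => val y ((U.e a ω' : ℕ) * K + root defs ρ')) =
      regVal U defs xs a := by
    funext ρ ω
    exact hroot ρ ω
  rw [hfun] at h2
  refine ⟨fun ρ ω => Q.val_mem hx _, fun ρ => ?_⟩
  have hN' : (0 : ℝ) < U.N a := by exact_mod_cast U.N_pos a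
  refine S.pr_le_of_card _ (U.N_pos a) ((Fintype.card_congr (U.e a)).trans (Fintype.card_fin _))
    (le_trans (Nat.cast_le.2 (Finset.card_le_card ?_)) (h2.trans ?_))
  · intro ω hω
    simp only [Finset.mem_filter, Finset.mem_univ, true_and] at hω ⊢
    exact ⟨ρ, hω⟩
  · calc δ * (U.N a * K) = (δ * K) * U.N a := by ring
      _ ≤ β * U.N a := mul_le_mul_of_nonneg_right hβ hN'.le

/-! ### Polynomial time -/

section PT

variable {A : Set Word} {α : Type*} [Enc α]

omit [Nonempty Reg] in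
theorem PT_addr {rd : α → Rd → ℕ → ℕ} {w : α → ℕ}
    (hrd : ∀ r, PT A (fun a => rd a r (w a))) (hw : PT A w) (u : (Rd × Reg) ⊕ ℕ) :
    PT A (fun a => addr defs (rd a) (w a) u) := by
  rcases u with ⟨r, ρ⟩ | j
  · exact PT.add (PT.mul (hrd r) (PT.const _)) (PT.const _)
  · exact PT.add (PT.mul hw (PT.const _)) (PT.const _)

omit [Nonempty Reg] in
theorem PT_gateOfSite {rd : α → Rd → ℕ → ℕ} {cb : α → CB → ℕ → Bool} {w : α → ℕ}
    (hrd : ∀ r, PT A (fun a => rd a r (w a))) (hcb : ∀ κ, PT A (fun a => cb a κ (w a)))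
    (hw : PT A w) (j : ℕ) (t : Tp Reg Rd CB) :
    PT A (fun a => siteGate defs (rd a) (cb a) (w a) j t) := by
  have hz : PT A (fun a => w a * KK defs + j) := PT.add (PT.mul hw (PT.const _)) (PT.const _)
  cases t with
  | bit κ =>
    refine PT_gConst ?_ hz
    refine ((hcb κ).cond (PT.const (1 : ℚ)) (PT.const 0)).congr fun a => ?_
    cases cb a κ (w a) <;> rfl
  | op o =>
    exact PT_toGate (e := fun a => addr defs (rd a) (w a)) (PT_addr defs hrd hw) hz o

omit [Nonempty Reg] in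
theorem PT_gatesOfSite {rd : α → Rd → ℕ → ℕ} {cb : α → CB → ℕ → Bool} {w : α → ℕ}
    (hrd : ∀ r, PT A (fun a => rd a r (w a))) (hcb : ∀ κ, PT A (fun a => cb a κ (w a)))
    (hw : PT A w) : PT A (fun a => siteGates defs (rd a) (cb a) (w a)) := by
  refine (PT_mapConst (f := fun (p : Tp Reg Rd CB × ℕ) a =>
    siteGate defs (rd a) (cb a) (w a) p.2 p.1) (tpl defs).zipIdx fun p _ =>
      PT_gateOfSite defs hrd hcb hw p.2 p.1).congr fun a => ?_
  unfold siteGates
  rw [List.mapIdx_eq_zipIdx_map]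

omit [Nonempty Reg] in
/-- the list of the gates of the network is computable in polynomial time -/
theorem PT_gatesL {N : α → ℕ} (hN : PT A N) (hNb : PBd N) {rd : α → Rd → ℕ → ℕ}
    {cb : α → CB → ℕ → Bool} (hrd : ∀ r, PT A (fun p : α × ℕ => rd p.1 r p.2))
    (hcb : ∀ κ, PT A (fun p : α × ℕ => cb p.1 κ p.2)) :
    PT A (fun a => gatesL defs (N a) (rd a) (cb a)) :=
  PT.flatMap (f := fun a w => siteGates defs (rd a) (cb a) w) (PT.range hN hNb)
    (PT_gatesOfSite defs (rd := fun p : α × ℕ => rd p.1) (cb := fun p => cb p.1) hrd hcb PT.snd')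

end PT

/-! ### The theorem -/

/-- **From a sound network to the reduction.** -/
theorem pcpq_of_net [∀ a, Nonempty (Ω a)] [∀ a, Fintype (Ω a)] (hdefs : ∀ ρ, (defs ρ).Ok)
    (hQ : QLin U.N) {ε : ℚ} (hε : 0 < ε) (hε' : ε < 1 / 2) {β : ℝ} (hβ : 0 < β)
    {dec : EndOfLine × List ℚ → Raw} (hd : PT ∅ dec) (m : ℕ)
    (hsound : ∀ a : EndOfLine, m ≤ (eolW a).length → ∀ xs : List ℚ, (∀ r ∈ xs, 0 ≤ r ∧ r ≤ 1) →
      NObeys (E a) defs ε β (regVal U defs xs a) → a.IsSolution (dec (a, xs)).w) :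
    ∃ (δ : ℚ) (C : ℕ), 0 < δ ∧ δ < 1 ∧
      ∀ p : Polynomial ℕ, (∀ᶠ M in Filter.atTop, C * M ≤ p.eval M) → PCPforPPAD ε δ p := by
  have hε1 : (ε : ℝ) < 1 / 2 := by
    have h := (Rat.cast_lt (K := ℝ)).2 hε'
    push_cast at h
    exact h
  -- the choice of `δ`
  obtain ⟨δ, hδ0, hδ1, hδβ⟩ : ∃ δ : ℚ, 0 < δ ∧ δ < 1 ∧ (δ : ℝ) * KK defs ≤ β := by
    have hK : (0 : ℝ) ≤ KK defs := Nat.cast_nonneg _
    have hpos : (0 : ℝ) < min 1 (β / (KK defs + 1)) := lt_min one_pos (by positivity)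
    obtain ⟨δ, h1, h2⟩ := exists_rat_btwn hpos
    refine ⟨δ, by exact_mod_cast h1, ?_, ?_⟩
    · have h3 := h2.trans_le (min_le_left _ _)
      exact_mod_cast h3
    · have h3 := (h2.trans_le (min_le_right _ _)).le
      rw [le_div_iff₀ (by positivity)] at h3
      have h4 : (0 : ℝ) ≤ (δ : ℝ) := by exact_mod_cast h1.le
      nlinarith
  have hQn : QLin (netNodes U defs) := hQ.mul (QLog.const _)
  have hsz : QLog fun a => Nat.size (U.N a * KK defs) := hQn.size
  have hQg : QLin fun a => (listW gateW (netGates U defs a)).length :=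
    (hQn.mul (((QLog.const 2).mul (((QLog.const (2 * plenB defs)).add
      ((QLog.const 5).mul hsz)).add (QLog.const 16))).add (QLog.const 1))).mono fun a =>
        listW_gatesL_le defs (U.N a) (U.rdN a) (U.cbN a) (U.N_pos a) (U.rd_lt a)
  have hNb : PBd U.N := hQ.pbd
  obtain ⟨C, hC⟩ := pcpq_of hε hδ0 (nodes := netNodes U defs) (gates := netGates U defs)
    (U.ptN.mul (PT.const _)) (hNb.mul (PBd.const _))
    (PT_gatesL defs U.ptN hNb U.rdN_pt U.cbN_pt) hd m
    (fun I _ => wfNet U defs I) (fun I hI x hx hsat => hsound I hI x hx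
      (obeys_of_sat U defs hdefs hε1 hδβ I x hx hsat)) hQn hQg
  exact ⟨δ, C, hδ0, hδ1, hC⟩

/-- The same for the polynomials of degree at least `2`. -/
theorem pcpq_of_net' [∀ a, Nonempty (Ω a)] [∀ a, Fintype (Ω a)] (hdefs : ∀ ρ, (defs ρ).Ok)
    (hQ : QLin U.N) {ε : ℚ} (hε : 0 < ε) (hε' : ε < 1 / 2) {β : ℝ} (hβ : 0 < β)
    {dec : EndOfLine × List ℚ → Raw} (hd : PT ∅ dec) (m : ℕ)
    (hsound : ∀ a : EndOfLine, m ≤ (eolW a).length → ∀ xs : List ℚ, (∀ r ∈ xs, 0 ≤ r ∧ r ≤ 1) →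
      NObeys (E a) defs ε β (regVal U defs xs a) → a.IsSolution (dec (a, xs)).w) :
    ∃ ε δ : ℚ, 0 < ε ∧ ε < 1 ∧ 0 < δ ∧ δ < 1 ∧
      ∀ p : Polynomial ℕ, 2 ≤ p.natDegree → PCPforPPAD ε δ p := by
  obtain ⟨δ, C, h1, h2, h3⟩ := pcpq_of_net U defs hdefs hQ hε hε' hβ hd m hsound
  exact ⟨ε, δ, hε, lt_trans hε' (by norm_num), h1, h2, fun p hp =>
    h3 p (eventually_of_degree hp C)⟩

end

end Vale.Agent.P330.H838
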