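import Vale.Agent.P330.H551.BDefs
import Vale.Agent.P330.H838.Fam

/-!
# From the network of blocks to the reduction

* `toND`, `toNSem`: the composite network in the format `ND`;
* `BNums`: numbers for a family of instances;
* `BDecodes`: the decoder;
* `pcpq_of_block`: soundness of the network of blocks, numbers and decoder give `PCPforPPAD` with
  quasi-linear length.
-/

namespace Vale.Agent.P330.H838

open Finset PCP.AR Vale.Agent.Lib.PolyTime
open S (BitDef IsB Tst)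
open H551 (GDef GSem Grp BSpec BReg BRd BCB BInst bnet ownLam BSound ODef Mod)

/-! ### The format -/

section Fmt

variable {Reg Rd CB Ω : Type} {nO : ℕ}

/-- The names of the neighbours of a group. -/
def grpL (nO : ℕ) : Grp → List (Fin 8 ⊕ Fin nO)
  | .pad => [.inl 0, .inl 1, .inl 2, .inl 3]
  | .inn => (List.finRange 8).map .inl
  | .all => (List.finRange 8).map .inl ++ (List.finRange nO).map .inr

/-- A function of bits with the names of the maps renamed. -/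
def toBit {Rd' : Type} (f : Rd → Rd') (B : BitDef Reg Rd CB) : BitDef Reg Rd' CB where
  ι := B.ι
  fι := B.fι
  inp i := (B.inp i).map (fun p => (f p.1, p.2)) id
  f := B.f

/-- A definition, in the format `ND`. -/
def toND (nO : ℕ) (lam : ℚ) : GDef Reg Rd CB → ND Reg (Rd ⊕ (Fin 8 ⊕ Fin nO)) CB
  | .bit B => .bit (toBit Sum.inl B)
  | .thr α ρ => .thr α ρ
  | .ra o g ρ => .ra (o.getD lam) ((grpL nO g).map Sum.inr) ρ

/-- The semantics, in the format `NSem`. -/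
def toNSem (E : GSem Rd CB Ω nO) : NSem (Rd ⊕ (Fin 8 ⊕ Fin nO)) CB Ω where
  rd := Sum.elim E.rd (Sum.elim E.nb E.nbO)
  cb := E.cb

theorem ownLam_eq (o : Option ℚ) (lam : ℚ) : ownLam o lam = ((o.getD lam : ℚ) : ℝ) := by
  cases o <;> rfl

theorem avg_eq (E : GSem Rd CB Ω nO) (g : Grp) (f : Ω → ℝ) (ω : Ω) :
    (toNSem E).avg ((grpL nO g).map Sum.inr) f ω = E.avg g f ω := by
  cases g with
  | pad =>
    simp only [NSem.avg, grpL, GSem.avg, toNSem, List.map_cons, List.map_nil, List.sum_cons,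
      List.sum_nil, List.length_cons, List.length_nil, Sum.elim_inr, Sum.elim_inl]
    norm_num
    ring
  | inn =>
    simp only [NSem.avg, grpL, GSem.avg, toNSem, List.map_map, List.length_map,
      List.length_finRange]
    rw [Fin.sum_univ_def]
    norm_num
    rfl
  | all =>
    simp only [NSem.avg, grpL, GSem.avg, toNSem, List.map_append, List.map_map,
      List.length_append, List.length_map, List.length_finRange, List.sum_append]
    rw [Fin.sum_univ_def, Fin.sum_univ_def]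
    push_cast
    rfl

/-- A register which obeys its definition in the format `ND` obeys it. -/
theorem rel_of_toND {E : GSem Rd CB Ω nO} {ε : ℝ} (hε : 0 ≤ ε) {lam : ℚ} {x : Reg → Ω → ℝ}
    {ρ : Reg} {ω : Ω} {d : GDef Reg Rd CB} (h : (toND nO lam d).Rel (toNSem E) ε x ρ ω) :
    d.Rel E ε lam x ρ ω := by
  cases d with
  | bit B =>
    intro b hb
    refine h b fun y hy => hb y fun i => ?_
    have h1 := hy i
    simp only [toBit] at h1
    cases hi : B.inp i with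
    | inl p =>
      rw [hi] at h1
      exact h1
    | inr κ =>
      rw [hi] at h1
      exact h1
  | thr α ρ' => exact h
  | ra o g ρ' =>
    have h1 : |x ρ ω - ((1 - ((o.getD lam : ℚ) : ℝ)) *
        (toNSem E).avg ((grpL nO g).map Sum.inr) (x ρ) ω + ((o.getD lam : ℚ) : ℝ) * x ρ' ω)| ≤
        (2 * ((grpL nO g).map
          (Sum.inr : Fin 8 ⊕ Fin nO → Rd ⊕ (Fin 8 ⊕ Fin nO))).length + 3) * ε := h
    rw [avg_eq, ← ownLam_eq] at h1
    cases g with
    | pad =>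
      refine h1.trans ?_
      simp only [grpL, List.map_cons, List.map_nil, List.length_cons, List.length_nil]
      norm_num
      nlinarith
    | inn =>
      refine h1.trans ?_
      simp only [grpL, List.map_map, List.length_map, List.length_finRange]
      norm_num
      nlinarith
    | all =>
      refine h1.trans ?_
      simp only [grpL, List.length_map, List.length_append, List.length_finRange]
      push_cast
      nlinarith

/-- The parameters of a definition lie in `[0, 1]`. -/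
def GOk : GDef Reg Rd CB → Prop
  | .bit _ => True
  | .thr α _ => 0 ≤ α ∧ α ≤ 1
  | .ra o _ _ => ∀ q ∈ o, 0 ≤ q ∧ q ≤ 1

theorem toND_ok {lam : ℚ} (h0 : 0 ≤ lam) (h1 : lam ≤ 1) {d : GDef Reg Rd CB} (h : GOk d) :
    (toND nO lam d).Ok := by
  cases d with
  | bit B => trivial
  | thr α ρ => exact h
  | ra o g ρ =>
    cases o with
    | none => exact ⟨h0, h1⟩
    | some q => exact h q rfl

end Fmt

/-- The parameters of a module lie in `[0, 1]`. -/
def OOk {Reg Rd CB I : Type} : ODef Reg Rd CB I → Prop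
  | .bit _ => True
  | .thr α _ => 0 ≤ α ∧ α ≤ 1
  | .ra o _ _ => ∀ q ∈ o, 0 ≤ q ∧ q ≤ 1

/-- The parameters of the modules lie in `[0, 1]`, and the sets of hard-wired bits are finite. -/
structure BOk (N : BSpec) : Prop where
  hold : ∀ ρ, OOk (N.hold.net ρ)
  step : ∀ ρ, OOk (N.step.net ρ)
  check : ∀ ρ, OOk (N.check.net ρ)
  cbH : Finite N.hold.CB
  cbS : Finite N.step.CB
  cbC : Finite N.check.CB

section Net

variable {N : BSpec}

theorem emb_ok {O : Type} {M : Mod (Fin N.k × N.L) O} (own : M.Reg → BReg N) (inp : N.L → BReg N)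
    (rdn : M.Rd → N.hold.Rd ⊕ N.step.Rd ⊕ N.check.Rd) (cbn : M.CB → BCB N)
    {d : ODef M.Reg M.Rd M.CB (Fin N.k × N.L)} (h : OOk d) : GOk (H551.emb own inp rdn cbn d) := by
  cases d with
  | bit B => trivial
  | thr α ρ => exact h
  | ra o g ρ => exact h

theorem bnet_ok (hN : BOk N) {τ : ℚ} (h0 : 0 ≤ τ) (h1 : τ ≤ 1) (ρ : BReg N) :
    GOk (bnet N τ ρ) := by
  cases ρ with
  | pre z l => trivial
  | x z l => exact ⟨by norm_num, by norm_num⟩
  | lo z l => exact ⟨by norm_num, by norm_num⟩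
  | hi z l => exact ⟨by norm_num, by norm_num⟩
  | hold z j ρ => exact emb_ok _ _ _ _ (hN.hold ρ)
  | step z ρ => exact emb_ok _ _ _ _ (hN.step ρ)
  | check z ρ => exact emb_ok _ _ _ _ (hN.check ρ)
  | t k => trivial
  | ta k => exact fun q hq => by simp at hq
  | tf k => exact ⟨h0, h1⟩
  | q i => trivial
  | qa i => exact fun q hq => by simp at hq
  | th i l =>
    have h2 : ((l : ℕ) : ℚ) + 1 ≤ 5 := by
      have h3 : (l : ℕ) + 1 ≤ 5 := l.2
      exact_mod_cast h3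
    have h4 : (0 : ℚ) ≤ ((l : ℕ) : ℚ) := by positivity
    exact ⟨by positivity, by linarith⟩

instance finite_breg : Finite (BReg N) := by
  let f : (Bool × N.L) ⊕ (Bool × Fin (N.r + 1) × N.hold.Reg) ⊕ (Bool × N.step.Reg) ⊕
      (Bool × N.check.Reg) ⊕ (Fin 3 × Tst) ⊕ (Fin 2 × Fin 3) ⊕ (Fin 3 × Fin 5) ⊕
      (Fin 3 × Bool × N.L) → BReg N :=
    Sum.elim (fun p => .x p.1 p.2) <| Sum.elim (fun p => .hold p.1 p.2.1 p.2.2) <|
      Sum.elim (fun p => .step p.1 p.2) <| Sum.elim (fun p => .check p.1 p.2) <|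
      Sum.elim (fun p => ![.t p.2, .ta p.2, .tf p.2] p.1) <|
      Sum.elim (fun p => ![.q p.2, .qa p.2] p.1) <|
      Sum.elim (fun p => .th p.1 p.2) fun p =>
        ![.pre p.2.1 p.2.2, .lo p.2.1 p.2.2, .hi p.2.1 p.2.2] p.1
  refine Finite.of_surjective f fun ρ => ?_
  cases ρ with
  | x z l => exact ⟨.inl (z, l), rfl⟩
  | hold z j ρ => exact ⟨.inr (.inl (z, j, ρ)), rfl⟩
  | step z ρ => exact ⟨.inr (.inr (.inl (z, ρ))), rfl⟩
  | check z ρ => exact ⟨.inr (.inr (.inr (.inl (z, ρ)))), rfl⟩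
  | t k => exact ⟨.inr (.inr (.inr (.inr (.inl (0, k))))), rfl⟩
  | ta k => exact ⟨.inr (.inr (.inr (.inr (.inl (1, k))))), rfl⟩
  | tf k => exact ⟨.inr (.inr (.inr (.inr (.inl (2, k))))), rfl⟩
  | q i => exact ⟨.inr (.inr (.inr (.inr (.inr (.inl (0, i)))))), rfl⟩
  | qa i => exact ⟨.inr (.inr (.inr (.inr (.inr (.inl (1, i)))))), rfl⟩
  | th i l => exact ⟨.inr (.inr (.inr (.inr (.inr (.inr (.inl (i, l))))))), rfl⟩
  | pre z l => exact ⟨.inr (.inr (.inr (.inr (.inr (.inr (.inr (0, z, l))))))), rfl⟩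
  | lo z l => exact ⟨.inr (.inr (.inr (.inr (.inr (.inr (.inr (1, z, l))))))), rfl⟩
  | hi z l => exact ⟨.inr (.inr (.inr (.inr (.inr (.inr (.inr (2, z, l))))))), rfl⟩

instance nonempty_breg : Nonempty (BReg N) := ⟨.q 0⟩

theorem finite_bcb (hN : BOk N) : Finite (BCB N) := by
  have h1 := hN.cbH
  have h2 := hN.cbS
  have h3 := hN.cbC
  let f : N.L ⊕ N.hold.CB ⊕ (Bool × N.step.CB) ⊕ N.check.CB → BCB N :=
    Sum.elim .start <| Sum.elim .hold <| Sum.elim (fun p => .step p.1 p.2) .check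
  refine Finite.of_surjective f fun κ => ?_
  cases κ with
  | start l => exact ⟨.inl l, rfl⟩
  | hold κ => exact ⟨.inr (.inl κ), rfl⟩
  | step z κ => exact ⟨.inr (.inr (.inl (z, κ))), rfl⟩
  | check κ => exact ⟨.inr (.inr (.inr κ)), rfl⟩

end Net

/-! ### Numbers -/

/-- Numbers of pairs: the second component is the lower digit. -/
def pairE {A B : Type} {m n : ℕ} (e : A ≃ Fin m) (f : B ≃ Fin n) : A × B ≃ Fin (m * n) :=
  (Equiv.prodCongr e f).trans finProdFinEquiv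

theorem pairE_apply {A B : Type} {m n : ℕ} (e : A ≃ Fin m) (f : B ≃ Fin n) (p : A × B) :
    (pairE e f p : ℕ) = (f p.2 : ℕ) + n * e p.1 := rfl

theorem pairE_mod {A B : Type} {m n : ℕ} (e : A ≃ Fin m) (f : B ≃ Fin n) (p : A × B) :
    (pairE e f p : ℕ) % n = f p.2 := by
  rw [pairE_apply, Nat.add_mul_mod_self_left, Nat.mod_eq_of_lt (f p.2).2]

theorem pairE_div {A B : Type} {m n : ℕ} (e : A ≃ Fin m) (f : B ≃ Fin n) (p : A × B) :
    (pairE e f p : ℕ) / n = e p.1 := by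
  have hn : 0 < n := lt_of_le_of_lt (Nat.zero_le _) (f p.2).2
  rw [pairE_apply, Nat.add_mul_div_left _ _ hn, Nat.div_eq_of_lt (f p.2).2, zero_add]

/-- Numbers for a family of instances of a network of blocks. -/
structure BNums {N : BSpec} (fam : EndOfLine → BInst N) where
  /-- the numbers of outer sites, points and pads -/
  NO : EndOfLine → ℕ
  ptO : PT ∅ NO
  NP : EndOfLine → ℕ
  ptP : PT ∅ NP
  NZ : EndOfLine → ℕ
  ptZ : PT ∅ NZ
  eO : ∀ a, (fam a).Om ≃ Fin (NO a)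
  eP : ∀ a, (fam a).P ≃ Fin (NP a)
  eZ : ∀ a, (fam a).Z ≃ Fin (NZ a)
  /-- the wires -/
  wrN : EndOfLine → Fin N.k → ℕ → ℕ
  wrN_eq : ∀ a i h, wrN a i (eO a h) = eO a ((fam a).sys.wr i h)
  wrN_pt : ∀ i, PT ∅ fun q : EndOfLine × ℕ => wrN q.1 i q.2
  /-- the expanders -/
  sON : EndOfLine → Fin N.nO → ℕ → ℕ
  sON_eq : ∀ a i h, sON a i (eO a h) = eO a ((fam a).sO i h)
  sON_pt : ∀ i, PT ∅ fun q : EndOfLine × ℕ => sON q.1 i q.2
  sPN : EndOfLine → Fin 4 → ℕ → ℕ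
  sPN_eq : ∀ a i p, sPN a i (eP a p) = eP a ((fam a).sP i p)
  sPN_pt : ∀ i, PT ∅ fun q : EndOfLine × ℕ => sPN q.1 i q.2
  sZN : EndOfLine → Fin 4 → ℕ → ℕ
  sZN_eq : ∀ a i z, sZN a i (eZ a z) = eZ a ((fam a).sZ i z)
  sZN_pt : ∀ i, PT ∅ fun q : EndOfLine × ℕ => sZN q.1 i q.2
  /-- the maps of the inner sites; the inner site `(p, z)` has the number `z + NZ * p` -/
  rdHN : EndOfLine → N.hold.Rd → ℕ → ℕ
  rdHN_eq : ∀ a R w, rdHN a R (pairE (eP a) (eZ a) w) = pairE (eP a) (eZ a) ((fam a).rdH R w)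
  rdHN_pt : ∀ R, PT ∅ fun q : EndOfLine × ℕ => rdHN q.1 R q.2
  rdSN : EndOfLine → N.step.Rd → ℕ → ℕ
  rdSN_eq : ∀ a R w, rdSN a R (pairE (eP a) (eZ a) w) = pairE (eP a) (eZ a) ((fam a).rdS R w)
  rdSN_pt : ∀ R, PT ∅ fun q : EndOfLine × ℕ => rdSN q.1 R q.2
  rdCN : EndOfLine → N.check.Rd → ℕ → ℕ
  rdCN_eq : ∀ a R w, rdCN a R (pairE (eP a) (eZ a) w) = pairE (eP a) (eZ a) ((fam a).rdC R w)
  rdCN_pt : ∀ R, PT ∅ fun q : EndOfLine × ℕ => rdCN q.1 R q.2
  /-- the hard-wired bits, from the numbers of the outer and of the inner site -/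
  cbHN : EndOfLine → N.hold.CB → ℕ → ℕ → Bool
  cbHN_eq : ∀ a κ h w, cbHN a κ (eO a h) (pairE (eP a) (eZ a) w) = (fam a).cbH κ h w
  cbHN_pt : ∀ κ, PT ∅ fun q : EndOfLine × (ℕ × ℕ) => cbHN q.1 κ q.2.1 q.2.2
  cbSN : EndOfLine → Bool → N.step.CB → ℕ → ℕ → Bool
  cbSN_eq : ∀ a z κ h w, cbSN a z κ (eO a h) (pairE (eP a) (eZ a) w) = (fam a).cbS z κ h w
  cbSN_pt : ∀ z κ, PT ∅ fun q : EndOfLine × (ℕ × ℕ) => cbSN q.1 z κ q.2.1 q.2.2
  cbCN : EndOfLine → N.check.CB → ℕ → ℕ → Bool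
  cbCN_eq : ∀ a κ h w, cbCN a κ (eO a h) (pairE (eP a) (eZ a) w) = (fam a).cbC κ h w
  cbCN_pt : ∀ κ, PT ∅ fun q : EndOfLine × (ℕ × ℕ) => cbCN q.1 κ q.2.1 q.2.2
  /-- the bits of the blocks of the start, from the numbers of the outer site and of the point -/
  stN : EndOfLine → N.L → ℕ → ℕ → Bool
  stN_eq : ∀ a l h p, stN a l (eO a h) (eP a p) =
    (fam a).enc ((fam a).sys.word (fam a).sys.w0 h) l p
  stN_pt : ∀ l, PT ∅ fun q : EndOfLine × (ℕ × ℕ) => stN q.1 l q.2.1 q.2.2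

section

variable {N : BSpec} {fam : EndOfLine → BInst N} (U : BNums fam)

/-- numbers of the inner sites -/
def BNums.eI (a : EndOfLine) : (fam a).P × (fam a).Z ≃ Fin (U.NP a * U.NZ a) :=
  pairE (U.eP a) (U.eZ a)

/-- numbers of the sites -/
def BNums.e (a : EndOfLine) : (fam a).Site ≃ Fin (U.NO a * (U.NP a * U.NZ a)) :=
  pairE (U.eO a) (U.eI a)

/-- the neighbours of an inner site on numbers -/
def BNums.nbIN (a : EndOfLine) (k : Fin 8) (w : ℕ) : ℕ :=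
  if h : (k : ℕ) < 4 then U.sZN a ⟨k, h⟩ (w % U.NZ a) + U.NZ a * (w / U.NZ a)
  else w % U.NZ a + U.NZ a * U.sPN a ⟨k - 4, by omega⟩ (w / U.NZ a)

theorem BNums.nbIN_eq (a : EndOfLine) (k : Fin 8) (w : (fam a).P × (fam a).Z) :
    U.nbIN a k (U.eI a w) = U.eI a ((fam a).nbI k w) := by
  unfold BNums.nbIN BInst.nbI BNums.eI
  rw [pairE_mod, pairE_div]
  split_ifs with h
  · rw [U.sZN_eq, pairE_apply]
  · rw [U.sPN_eq, pairE_apply]

/-- the maps of the inner sites on numbers -/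
def BNums.rdIN (a : EndOfLine) (R : N.hold.Rd ⊕ N.step.Rd ⊕ N.check.Rd) (w : ℕ) : ℕ :=
  match R with
  | .inl R => U.rdHN a R w
  | .inr (.inl R) => U.rdSN a R w
  | .inr (.inr R) => U.rdCN a R w

/-- the maps of the sites on numbers -/
def BNums.rdN (a : EndOfLine) (R : BRd N ⊕ (Fin 8 ⊕ Fin N.nO)) (s : ℕ) : ℕ :=
  match R with
  | .inl .self => s
  | .inl (.rd i R) => U.rdIN a R (s % (U.NP a * U.NZ a)) + U.NP a * U.NZ a *
      (match i with
        | none => s / (U.NP a * U.NZ a)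
        | some i => U.wrN a i (s / (U.NP a * U.NZ a)))
  | .inr (.inl k) =>
      U.nbIN a k (s % (U.NP a * U.NZ a)) + U.NP a * U.NZ a * (s / (U.NP a * U.NZ a))
  | .inr (.inr k) => s % (U.NP a * U.NZ a) + U.NP a * U.NZ a *
      U.sON a k (s / (U.NP a * U.NZ a))

/-- the hard-wired bits on numbers -/
def BNums.cbN (a : EndOfLine) (κ : BCB N) (s : ℕ) : Bool :=
  match κ with
  | .start l => U.stN a l (s / (U.NP a * U.NZ a)) (s % (U.NP a * U.NZ a) / U.NZ a)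
  | .hold κ => U.cbHN a κ (s / (U.NP a * U.NZ a)) (s % (U.NP a * U.NZ a))
  | .step z κ => U.cbSN a z κ (s / (U.NP a * U.NZ a)) (s % (U.NP a * U.NZ a))
  | .check κ => U.cbCN a κ (s / (U.NP a * U.NZ a)) (s % (U.NP a * U.NZ a))

theorem BNums.e_mod (a : EndOfLine) (ω : (fam a).Site) :
    (U.e a ω : ℕ) % (U.NP a * U.NZ a) = U.eI a ω.2 := pairE_mod _ _ _

theorem BNums.e_div (a : EndOfLine) (ω : (fam a).Site) :
    (U.e a ω : ℕ) / (U.NP a * U.NZ a) = U.eO a ω.1 := pairE_div _ _ _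

theorem BNums.e_apply (a : EndOfLine) (ω : (fam a).Site) :
    (U.e a ω : ℕ) = U.eI a ω.2 + U.NP a * U.NZ a * U.eO a ω.1 := rfl

theorem BNums.rdIN_eq (a : EndOfLine) (R : N.hold.Rd ⊕ N.step.Rd ⊕ N.check.Rd)
    (w : (fam a).P × (fam a).Z) :
    U.rdIN a R (U.eI a w) = U.eI a (Sum.elim (fun R => (fam a).rdH R w)
      (Sum.elim (fun R => (fam a).rdS R w) fun R => (fam a).rdC R w) R) := by
  rcases R with R | R | R
  · exact U.rdHN_eq a R w
  · exact U.rdSN_eq a R w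
  · exact U.rdCN_eq a R w

theorem BNums.rdN_eq (a : EndOfLine) (R : BRd N ⊕ (Fin 8 ⊕ Fin N.nO)) (ω : (fam a).Site) :
    U.rdN a R (U.e a ω) = U.e a ((toNSem (fam a).sem).rd R ω) := by
  have e1 := U.e_mod a ω
  have e2 := U.e_div a ω
  rcases R with (_ | ⟨i, R⟩) | k | k
  · rfl
  · cases i with
    | none =>
      have h1 : U.rdN a (.inl (.rd none R)) (U.e a ω) =
        U.rdIN a R ((U.e a ω : ℕ) % (U.NP a * U.NZ a)) + U.NP a * U.NZ a *
          ((U.e a ω : ℕ) / (U.NP a * U.NZ a)) := rfl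
      rw [h1, e1, e2, U.rdIN_eq]
      rfl
    | some i =>
      have h1 : U.rdN a (.inl (.rd (some i) R)) (U.e a ω) =
        U.rdIN a R ((U.e a ω : ℕ) % (U.NP a * U.NZ a)) + U.NP a * U.NZ a *
          U.wrN a i ((U.e a ω : ℕ) / (U.NP a * U.NZ a)) := rfl
      rw [h1, e1, e2, U.rdIN_eq, U.wrN_eq]
      rfl
  · have h1 : U.rdN a (.inr (.inl k)) (U.e a ω) =
      U.nbIN a k ((U.e a ω : ℕ) % (U.NP a * U.NZ a)) + U.NP a * U.NZ a *
        ((U.e a ω : ℕ) / (U.NP a * U.NZ a)) := rfl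
    rw [h1, e1, e2, U.nbIN_eq]
    rfl
  · have h1 : U.rdN a (.inr (.inr k)) (U.e a ω) =
      ((U.e a ω : ℕ) % (U.NP a * U.NZ a)) + U.NP a * U.NZ a *
        U.sON a k ((U.e a ω : ℕ) / (U.NP a * U.NZ a)) := rfl
    rw [h1, e1, e2, U.sON_eq]
    rfl

theorem BNums.cbN_eq (a : EndOfLine) (κ : BCB N) (ω : (fam a).Site) :
    U.cbN a κ (U.e a ω) = (toNSem (fam a).sem).cb κ ω := by
  cases κ with
  | start l =>
    show U.stN a l _ (_ / _) = _
    rw [U.e_div, U.e_mod]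
    have h1 : (U.eI a ω.2 : ℕ) / U.NZ a = U.eP a ω.2.1 := pairE_div _ _ _
    rw [h1, U.stN_eq]
    rfl
  | hold κ =>
    show U.cbHN a κ _ _ = _
    rw [U.e_div, U.e_mod]
    exact U.cbHN_eq a κ _ _
  | step z κ =>
    show U.cbSN a z κ _ _ = _
    rw [U.e_div, U.e_mod]
    exact U.cbSN_eq a z κ _ _
  | check κ =>
    show U.cbCN a κ _ _ = _
    rw [U.e_div, U.e_mod]
    exact U.cbCN_eq a κ _ _

theorem BNums.pt_I : PT ∅ fun q : EndOfLine × ℕ => U.NP q.1 * U.NZ q.1 :=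
  (U.ptP.mul U.ptZ).comp PT.fst'

theorem BNums.rdIN_pt (R : N.hold.Rd ⊕ N.step.Rd ⊕ N.check.Rd) :
    PT ∅ fun q : EndOfLine × ℕ => U.rdIN q.1 R q.2 := by
  rcases R with R | R | R
  · exact U.rdHN_pt R
  · exact U.rdSN_pt R
  · exact U.rdCN_pt R

theorem BNums.nbIN_pt (k : Fin 8) : PT ∅ fun q : EndOfLine × ℕ => U.nbIN q.1 k q.2 := by
  have hZ : PT ∅ fun q : EndOfLine × ℕ => U.NZ q.1 := U.ptZ.comp PT.fst'
  have hm := PT.mod PT.snd' hZ
  have hd := PT.div PT.snd' hZ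
  by_cases h : (k : ℕ) < 4
  · refine (((U.sZN_pt ⟨k, h⟩).comp (PT.pair PT.fst' hm)).add (hZ.mul hd)).congr fun q => ?_
    simp only [BNums.nbIN, dif_pos h]
  · refine (hm.add (hZ.mul ((U.sPN_pt ⟨k - 4, by omega⟩).comp (PT.pair PT.fst' hd)))).congr
      fun q => ?_
    simp only [BNums.nbIN, dif_neg h]

theorem BNums.rdN_pt (R : BRd N ⊕ (Fin 8 ⊕ Fin N.nO)) :
    PT ∅ fun q : EndOfLine × ℕ => U.rdN q.1 R q.2 := by
  have hI := U.pt_I
  have hm := PT.mod PT.snd' hI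
  have hd := PT.div PT.snd' hI
  rcases R with (_ | ⟨i, R⟩) | k | k
  · exact PT.snd'
  · have h1 := (U.rdIN_pt R).comp (PT.pair PT.fst' hm)
    cases i with
    | none => exact h1.add (hI.mul hd)
    | some i => exact h1.add (hI.mul ((U.wrN_pt i).comp (PT.pair PT.fst' hd)))
  · exact ((U.nbIN_pt k).comp (PT.pair PT.fst' hm)).add (hI.mul hd)
  · exact hm.add (hI.mul ((U.sON_pt k).comp (PT.pair PT.fst' hd)))

theorem BNums.cbN_pt (κ : BCB N) : PT ∅ fun q : EndOfLine × ℕ => U.cbN q.1 κ q.2 := by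
  have hI := U.pt_I
  have hm := PT.mod PT.snd' hI
  have hd := PT.div PT.snd' hI
  have hZ : PT ∅ fun q : EndOfLine × ℕ => U.NZ q.1 := U.ptZ.comp PT.fst'
  cases κ with
  | start l => exact (U.stN_pt l).comp (PT.pair PT.fst' (PT.pair hd (PT.div hm hZ)))
  | hold κ => exact (U.cbHN_pt κ).comp (PT.pair PT.fst' (PT.pair hd hm))
  | step z κ => exact (U.cbSN_pt z κ).comp (PT.pair PT.fst' (PT.pair hd hm))
  | check κ => exact (U.cbCN_pt κ).comp (PT.pair PT.fst' (PT.pair hd hm))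

/-- The numbers of the composite network. -/
def BNums.nnums : NNums fun a => toNSem (fam a).sem where
  N a := U.NO a * (U.NP a * U.NZ a)
  ptN := U.ptO.mul (U.ptP.mul U.ptZ)
  e := U.e
  rdN := U.rdN
  rdN_eq := U.rdN_eq
  rdN_pt := U.rdN_pt
  cbN := U.cbN
  cbN_eq := U.cbN_eq
  cbN_pt := U.cbN_pt

/-! ### The decoder -/

/-- The conclusion of `BSound` at an instance: one of the block streams is near the word of a
configuration at which the path ends. -/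
def Ends (I : BInst N) (ε ρin ρ₀ : ℝ) (x : BReg N → I.Site → ℝ) : Prop :=
  (∃ w, I.sys.Valid w ∧ I.Near ε ρin ρ₀ x false w ∧ ¬ I.sys.Valid (I.sys.step false w)) ∨
  (∃ w, I.sys.Valid w ∧ w ≠ I.sys.w0 ∧ I.Near ε ρin ρ₀ x true w ∧
    ¬ I.sys.Valid (I.sys.step true w))

/-- **The decoder.** The values of the block streams `x z l` at the site `ω` are the values of the
nodes `num ω * K + root z l` of the assignment `xs`. -/
def BDecodes (ρin ρ₀ : ℝ) (m : ℕ) : Prop :=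
  ∀ (K : ℕ) (root : Bool → N.L → ℕ), ∃ D : EndOfLine × List ℚ → Raw, PT ∅ D ∧
    ∀ a : EndOfLine, m ≤ (eolW a).length → ∀ xs : List ℚ, (∀ r ∈ xs, 0 ≤ r ∧ r ≤ 1) →
      ∀ ε : ℝ, 0 < ε → ε < 1 / 100 → ∀ x : BReg N → (fam a).Site → ℝ,
        (∀ z l ω, x (.x z l) ω = val xs (U.e a ω * K + root z l)) →
        Ends (fam a) ε ρin ρ₀ x → a.IsSolution (D (a, xs)).w

/-- **From the network of blocks to the reduction.** -/
theorem pcpq_of_block (hN : BOk N) {Q : BInst N → Prop} (m : ℕ)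
    (hfam : ∀ a : EndOfLine, m ≤ (eolW a).length → Q (fam a)) {ρin : ℝ} {τ : ℚ} {ρ₀ : ℝ}
    (hτ0 : 0 ≤ τ) (hτ1 : τ ≤ 1) (hB : BSound N Q ρin τ ρ₀)
    (hQ : QLin fun a => U.NO a * (U.NP a * U.NZ a)) (hD : BDecodes U ρin ρ₀ m) :
    ∃ ε δ : ℚ, 0 < ε ∧ ε < 1 ∧ 0 < δ ∧ δ < 1 ∧
      ∀ p : Polynomial ℕ, 2 ≤ p.natDegree → PCPforPPAD ε δ p := by
  classical
  obtain ⟨lam, hl0, hl1, ε, hε0, hε1, β, hβ, hs⟩ := hB
  have := finite_bcb hN
  let _ : Fintype (BReg N) := Fintype.ofFinite _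
  let _ : Fintype (BCB N) := Fintype.ofFinite _
  have hε0' : (0 : ℝ) < ε := by exact_mod_cast hε0
  have hε1' : (ε : ℝ) < 1 / 100 := by
    have h := (Rat.cast_lt (K := ℝ)).2 hε1
    push_cast at h
    exact h
  obtain ⟨D, hDpt, hD⟩ := hD (KK fun ρ => toND N.nO lam (bnet N τ ρ))
    (fun z l => root (fun ρ => toND N.nO lam (bnet N τ ρ)) (.x z l))
  refine pcpq_of_net' U.nnums (fun ρ => toND N.nO lam (bnet N τ ρ))
    (fun ρ => toND_ok hl0.le hl1.le (bnet_ok hN hτ0 hτ1 ρ)) hQ hε0 (by linarith) hβ hDpt m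
    fun a ha xs hxs hobey => ?_
  refine hD a ha xs hxs ε hε0' hε1' (regVal U.nnums (fun ρ => toND N.nO lam (bnet N τ ρ)) xs a)
    (fun z l ω => rfl) ?_
  refine hs (fam a) (hfam a ha) _ ⟨hobey.1, fun ρ => le_trans ?_ (hobey.2 ρ)⟩
  refine PCP.AR.pr_mono fun ω hω => ?_
  exact fun h => hω (rel_of_toND hε0'.le h)

end

end Vale.Agent.P330.H838
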