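import Vale.Agent.P330.H838.NumsOf
import Vale.Agent.P330.H798.Dec2

/-!
# The decoder for the instances of an upper and a lower family

The bits of a register at an outer site are decoded by the inner decoder (`FData.Dec`), then the
word of the blocks is corrected by iterating `eta`, then the solution is read (`SFam.sol`).
-/

namespace Vale.Agent.P330.H838

open Finset PCP.AR Vale.Agent.Lib.PolyTime
open H475 (SFam FData Wd wd toWd wd0)
open H551 (BSpec BInst BReg)
open H798 (rnd Contr blksN blksN_eq iterate_eq contr_of_facts PT_blksN pow_mul_lt_one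
  exists_rounds)
open S (IsB PT_halfLt)

/-! ### Words of a fixed length -/

/-- The word cut or padded to the length `m`. -/
def cutW (m : ℕ) (w : Word) : Word := (List.range m).map fun i => w.getD i false

theorem map_range_fin {α : Type*} (n : ℕ) (f : ℕ → α) :
    (List.range n).map f = List.ofFn fun i : Fin n => f i := by
  rw [List.ofFn_eq_map, ← List.map_coe_finRange_eq_range (n := n), List.map_map]
  rfl

theorem cutW_eq (m : ℕ) (w : Word) : cutW m w = wd (toWd m w) := by
  unfold cutW wd toWd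
  exact map_range_fin m _

theorem toWd_wd {m : ℕ} (s : Wd m) : toWd m (wd s) = s := by
  funext i
  unfold toWd wd
  rw [List.getD_eq_getElem?_getD, List.getElem?_ofFn]
  simp

theorem cutW_wd {m : ℕ} (s : Wd m) : cutW m (wd s) = wd s := by rw [cutW_eq, toWd_wd]

theorem cutW_nil (m : ℕ) : cutW m [] = wd (wd0 m) := by
  rw [cutW_eq]
  congr 1

theorem esize_cutW (m : ℕ) (w : Word) : esize (cutW m w) ≤ m * 3 := by
  have h := esize_list_le (l := cutW m w) (B := 1) fun x _ => (esize_bool x).le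
  have h2 : (cutW m w).length = m := by
    unfold cutW
    rw [List.length_map, List.length_range]
  rw [h2] at h
  exact h

theorem PT_cutW {A : Set Word} {α : Type*} [Enc α] {m : α → ℕ} {w : α → Word} (hm : PT A m)
    (hmb : PBd m) (hw : PT A w) : PT A fun a => cutW (m a) (w a) :=
  PT.map (f := fun a i => (w a).getD i false) (PT.range hm hmb)
    (PT.getD (hw.comp PT.fst') PT.snd' (PT.const false))

variable {S : SFam} {F : FData S.K S.m} (U : F.Nums) {ρin : ℝ} (Dc : F.Dec U ρin)

/-! ### The blocks -/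

/-- The table of the bits of a register at the outer site with the number `h`. -/
def tabN (K : ℕ) (root : F.L → ℕ) (a : EndOfLine) (xs : List ℚ) (h : ℕ) :
    List (List (List Bool)) :=
  (List.range (U.nP a)).map fun i => (List.range (U.nZ a)).map fun j => Dc.lst.map fun l =>
    decide (1 / 2 < xs.getD ((j + U.nZ a * i + U.nP a * U.nZ a * h) * K + root l) 0)

/-- The first block of a register at the outer site with the number `h`. -/
def firstN (K : ℕ) (root : F.L → ℕ) (a : EndOfLine) (xs : List ℚ) (h : ℕ) : Option Word :=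
  some (cutW (S.m a) (Dc.dec (a, tabN U Dc K root a xs h)))

variable (S) in
/-- One round of correction of a block. -/
def etaW (a : EndOfLine) (h : ℕ) (X : List (Option Word)) : Word :=
  cutW (S.m a) (S.feta (S.pubN (a, h) :: X.map fun o => o.getD (cutW (S.m a) [])))

theorem etaW_eq (a : EndOfLine) (h : S.Om a) (v : Fin S.K → Option (Wd (S.m a))) :
    etaW S a (S.num a h) (List.ofFn fun i => (v i).map wd) = wd ((S.sys a).eta h v) := by
  unfold etaW
  rw [S.eta_eq, cutW_eq, S.pubN_eq, List.map_ofFn]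
  congr 4
  congr 1
  funext i
  simp only [Function.comp]
  cases v i with
  | none => exact cutW_nil _
  | some s => rfl

/-- The blocks of a register after the correction. -/
def blksW (s K : ℕ) (root : F.L → ℕ) (a : EndOfLine) (xs : List ℚ) : List Word :=
  (blksN (S.n a) (s * S.n a) (fun i h => S.wrN i (a, h)) (etaW S a)
    (firstN U Dc K root a xs)).map fun o => o.getD []

/-- **The blocks are exact.** -/
theorem blksW_eq {a : EndOfLine} (ha : S.N₀ ≤ len a) {ε ρ₀ : ℝ} (hε : ε < 1 / 2)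
    (hρ : ρ₀ ≤ S.ρ₁) {s K : ℕ} (hs : S.c₀ ^ s ≤ 1 / 2) {root : F.L → ℕ} {xs : List ℚ}
    {u : S.Om a → F.L → F.P a × F.Z a → ℝ}
    (hu : ∀ h l p z, u h l (p, z) = val xs (((U.eZ a z : ℕ) + U.nZ a * U.eP a p +
      U.nP a * U.nZ a * S.num a h) * K + root l)) {w : S.Cf a}
    (hN : pr (fun h : S.Om a => ¬ F.Clean ε ρin ((S.sys a).word w h) (u h)) ≤ ρ₀) :
    blksW U Dc s K root a xs =
      List.ofFn fun j => wd ((S.sys a).word w ((S.num a).symm j)) := by
  classical
  set X : S.Om a → Option (Wd (S.m a)) := fun h =>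
    some (toWd (S.m a) (Dc.dec (a, tabN U Dc K root a xs (S.num a h)))) with hX
  have h1 : ∀ h, firstN U Dc K root a xs (S.num a h) = (X h).map wd := by
    intro h
    rw [hX]
    unfold firstN
    rw [cutW_eq]
    rfl
  have htab : ∀ h, tabN U Dc K root a xs (S.num a h) = List.ofFn fun i => List.ofFn fun j =>
      Dc.lst.map ((fun (ω : F.P a × F.Z a) l => decide (1 / 2 < u h l ω))
        ((U.eP a).symm i, (U.eZ a).symm j)) := by
    intro h
    unfold tabN
    rw [map_range_fin]
    congr 1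
    funext i
    rw [map_range_fin]
    congr 1
    funext j
    refine List.map_congr_left fun l _ => ?_
    simp only
    rw [decide_eq_decide, hu, Equiv.apply_symm_apply, Equiv.apply_symm_apply]
    unfold val
    have h2 : ((1 / 2 : ℚ) : ℝ) = 1 / 2 := by norm_num
    rw [← h2]
    exact Rat.cast_lt.symm
  have hnear : pr (fun h => X h ≠ some ((S.sys a).word w h)) ≤ S.ρ₁ := by
    refine (le_trans (pr_mono fun h hh hc => hh ?_) hN).trans hρ
    rw [hX]
    simp only
    have h4 : pr (fun ω : F.P a × F.Z a => ∃ l,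
        (fun (ω : F.P a × F.Z a) l => decide (1 / 2 < u h l ω)) ω l ≠
          F.enc a ((S.sys a).word w h) l ω.1) ≤ ρin := by
      refine le_trans (pr_mono fun ω hω => ?_) hc
      obtain ⟨l, hl⟩ := hω
      exact ⟨l, fun h3 => hl (IsB.half hε h3)⟩
    rw [htab, Dc.dec_eq a ((S.sys a).word w h) _ h4, toWd_wd]
  have h2 := blksN_eq (wr := fun i h => (S.sys a).wr i h)
    (wrN := fun i h => S.wrN i (a, h)) (S.num a) (wd (m := S.m a)) (fun i h => S.wrN_eq i a h) (etaW_eq a) h1 (s * S.n a)
  have h3 := iterate_eq (contr_of_facts (S.facts a ha) w) S.c₀_nonneg S.c₀_lt.le hnear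
    (n := s * S.n a) (by
      rw [Fintype.card_congr (S.num a), Fintype.card_fin]
      exact pow_mul_lt_one S.c₀_nonneg hs _)
  unfold blksW
  rw [h2, h3]
  unfold H798.lst
  rw [List.map_ofFn]
  rfl

/-! ### Polynomial time -/

theorem pbd_m : PBd S.m := S.m_qlog.pbd

theorem pbd_n : PBd S.n := S.n_qlin.pbd

theorem nP_pos (a : EndOfLine) : 0 < U.nP a :=
  lt_of_le_of_lt (Nat.zero_le _) (U.eP a (Classical.arbitrary _)).2

theorem nZ_pos (a : EndOfLine) : 0 < U.nZ a :=
  lt_of_le_of_lt (Nat.zero_le _) (U.eZ a (Classical.arbitrary _)).2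

theorem pbd_nP : PBd U.nP := by
  obtain ⟨c, hc⟩ := U.size
  exact ((pbd_m.add (PBd.const 2)).pow c).mono fun a =>
    (Nat.le_mul_of_pos_right _ (nZ_pos U a)).trans (hc a)

theorem pbd_nZ : PBd U.nZ := by
  obtain ⟨c, hc⟩ := U.size
  exact ((pbd_m.add (PBd.const 2)).pow c).mono fun a =>
    (Nat.le_mul_of_pos_left _ (nP_pos U a)).trans (hc a)

theorem PT_tabN {α : Type} [Enc α] {a : α → EndOfLine} {xs : α → List ℚ} {h : α → ℕ}
    (ha : PT ∅ a) (hx : PT ∅ xs) (hh : PT ∅ h) (K : ℕ) (root : F.L → ℕ) :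
    PT ∅ fun q => tabN U Dc K root (a q) (xs q) (h q) := by
  unfold tabN
  refine PT.map (f := fun q i => (List.range (U.nZ (a q))).map fun j => Dc.lst.map fun l =>
    decide (1 / 2 < (xs q).getD ((j + U.nZ (a q) * i + U.nP (a q) * U.nZ (a q) * h q) * K +
      root l) 0)) (PT.range (U.nP_pt.comp ha) ((pbd_nP U).comp ha)) ?_
  refine PT.map (f := fun (q : α × ℕ) j => Dc.lst.map fun l =>
    decide (1 / 2 < (xs q.1).getD ((j + U.nZ (a q.1) * q.2 +
      U.nP (a q.1) * U.nZ (a q.1) * h q.1) * K + root l) 0))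
      (PT.range (U.nZ_pt.comp (ha.comp PT.fst')) ((pbd_nZ U).comp (ha.comp PT.fst'))) ?_
  refine PT_mapConst (f := fun l (q : (α × ℕ) × ℕ) =>
    decide (1 / 2 < (xs q.1.1).getD ((q.2 + U.nZ (a q.1.1) * q.1.2 +
      U.nP (a q.1.1) * U.nZ (a q.1.1) * h q.1.1) * K + root l) 0)) Dc.lst fun l _ => ?_
  have hZ : PT ∅ fun q : (α × ℕ) × ℕ => U.nZ (a q.1.1) := U.nZ_pt.comp (ha.comp PT.fst'.fst)
  have hP : PT ∅ fun q : (α × ℕ) × ℕ => U.nP (a q.1.1) := U.nP_pt.comp (ha.comp PT.fst'.fst)
  refine PT_halfLt (PT.getD (hx.comp PT.fst'.fst) ?_ (PT.const 0))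
  exact ((((PT.snd'.add (hZ.mul PT.fst'.snd)).add ((hP.mul hZ).mul
    (hh.comp PT.fst'.fst)))).mul (PT.const K)).add (PT.const _)

theorem PT_firstN {α : Type} [Enc α] {a : α → EndOfLine} {xs : α → List ℚ} {h : α → ℕ}
    (ha : PT ∅ a) (hx : PT ∅ xs) (hh : PT ∅ h) (K : ℕ) (root : F.L → ℕ) :
    PT ∅ fun q => firstN U Dc K root (a q) (xs q) (h q) := by
  unfold firstN
  exact PT.some (PT_cutW (m := fun q => S.m (a q)) (S.m_pt.comp ha) (pbd_m.comp ha)
    (Dc.dec_pt.comp (ha.pair (PT_tabN U Dc ha hx hh K root))))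

variable (S) in
theorem PT_etaW {α : Type} [Enc α] {a : α → EndOfLine} {h : α → ℕ}
    {X : α → List (Option Word)} (ha : PT ∅ a) (hh : PT ∅ h) (hX : PT ∅ X) :
    PT ∅ fun q => etaW S (a q) (h q) (X q) := by
  unfold etaW
  have h0 : PT ∅ fun q => cutW (S.m (a q)) [] :=
    PT_cutW (m := fun q => S.m (a q)) (S.m_pt.comp ha) (pbd_m.comp ha) (PT.const [])
  refine PT_cutW (m := fun q => S.m (a q)) (S.m_pt.comp ha) (pbd_m.comp ha)
    (S.feta_pt.comp (PT.cons (S.pubN_pt.comp (ha.pair hh)) ?_))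
  exact PT.map (f := fun q (o : Option Word) => o.getD (cutW (S.m (a q)) [])) hX
    (PT.optGetD PT.snd' (h0.comp PT.fst'))

theorem PT_blksW (s K : ℕ) (root : F.L → ℕ) :
    PT ∅ fun q : EndOfLine × List ℚ => blksW U Dc s K root q.1 q.2 := by
  unfold blksW
  refine PT.map (f := fun _ (o : Option Word) => o.getD []) ?_
    (PT.optGetD PT.snd' (PT.const []))
  refine PT_blksN (α := EndOfLine × List ℚ) (NO := fun q => S.n q.1) (n := fun q => s * S.n q.1)
    (wrN := fun q i h => S.wrN i (q.1, h)) (etaN := fun q => etaW S q.1)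
    (X0 := fun q h => firstN U Dc K root q.1 q.2 h) (B := fun q => S.m q.1 * 3)
    (S.n_pt.comp PT.fst') (pbd_n.comp (A := ∅) PT.fst')
    (PT.mul (PT.const s) (S.n_pt.comp PT.fst'))
    ((PBd.const s).mul (pbd_n.comp (A := ∅) PT.fst'))
    (fun i => (S.wrN_pt i).comp (PT.fst'.fst.pair PT.snd'))
    (PT_etaW S PT.fst'.fst PT.snd'.fst PT.snd'.snd)
    (PT_firstN U Dc PT.fst'.fst PT.fst'.snd PT.snd' K root)
    ((pbd_m.comp (A := ∅) PT.fst').mul (PBd.const 3)) fun q h v => esize_cutW _ _

/-- The solution read in the register `z`. -/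
def solW (s K : ℕ) (root : F.L → ℕ) (q : EndOfLine × List ℚ) : Word :=
  S.sol (q.1, blksW U Dc s K root q.1 q.2)

theorem PT_solW (s K : ℕ) (root : F.L → ℕ) : PT ∅ (solW U Dc s K root) :=
  S.sol_pt.comp (PT.fst'.pair (PT_blksW U Dc s K root))

open Classical in
/-- The decoder: the first of the two words which is a solution. -/
noncomputable def decW (s K : ℕ) (root : Bool → F.L → ℕ) (q : EndOfLine × List ℚ) : Word :=
  if q.1.isSol (solW U Dc s K (root false) q) = true then solW U Dc s K (root false) q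
  else solW U Dc s K (root true) q

theorem PT_decW (s K : ℕ) (root : Bool → F.L → ℕ) : PT ∅ (decW U Dc s K root) := by
  classical
  unfold decW
  exact PT.ite ((PT_isSol PT.fst' (PT_solW U Dc s K (root false))).congr fun a => by simp)
    (PT_solW U Dc s K (root false)) (PT_solW U Dc s K (root true))

/-! ### The theorem -/

include Dc in
/-- **The decoder.** -/
theorem bdecodes_of (r : ℕ) {ρ₀ : ℝ} (hρ : ρ₀ ≤ S.ρ₁) :
    BDecodes (numsOf r U) ρin ρ₀ S.N₀ := by
  obtain ⟨s, hs⟩ := exists_rounds S.c₀_lt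
  intro K root
  refine ⟨fun q => Raw.mk (decW U Dc s K root q), PT.rawOfList (PT_decW U Dc s K root), ?_⟩
  intro a ha xs hxs ε hε0 hε1 x hx hE
  have hε : ε < 1 / 2 := by linarith
  have key : ∀ z w, (S.sys a).Valid w → (instOf S F r a).Near ε ρin ρ₀ x z w →
      (¬ (S.sys a).Valid ((S.sys a).step false w) ∨
        (w ≠ (S.sys a).w0 ∧ ¬ (S.sys a).Valid ((S.sys a).step true w))) →
      a.IsSolution (solW U Dc s K (root z) (a, xs)) := by
    intro z w hw hN hs'
    have h1 := blksW_eq U Dc ha hε hρ hs (root := root z) (xs := xs)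
      (u := fun h l ω => x (.x z l) (h, ω)) (fun h l p z' => hx z l (h, (p, z'))) hN
    show a.IsSolution (S.sol (a, blksW U Dc s K (root z) a xs))
    rw [h1]
    exact S.sol_ok a ha w hw hs'
  show a.IsSolution (decW U Dc s K root (a, xs))
  unfold decW
  split_ifs with hsol
  · exact (a.isSol_iff _).1 hsol
  · rcases hE with ⟨w, h1, h2, h3⟩ | ⟨w, h1, h2, h3, h4⟩
    · exact absurd ((a.isSol_iff _).2 (key false w h1 h2 (Or.inl h3))) hsol
    · exact key true w h1 h3 (Or.inr ⟨h2, h4⟩)

end Vale.Agent.P330.H838
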