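import Vale.Agent.P330.H241.Defs
import Mathlib

/-!
# Quasi-linear and polylogarithmic functions of an instance

`QLog f`: `f I ≤ k (log N) ^ k`; `QLin f`: `f I ≤ k N (log N) ^ k`, where `N` is the length of the
code of `I`.
-/

namespace Vale.Agent.P330.H838

/-- the length of an instance -/
def len (I : EndOfLine) : ℕ := (eolW I).length

/-- the logarithm of the length -/
def lg (I : EndOfLine) : ℕ := Nat.log 2 (eolW I).length

theorem length_pairW (u v : List Bool) : (pairW u v).length = 2 * u.length + 1 + v.length := by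
  have : (u.flatMap fun b => [true, b]).length = 2 * u.length := by
    induction u with
    | nil => simp
    | cons b u ih => simp only [List.flatMap_cons, List.length_append, List.length_cons, ih]; simp; ring
  simp only [pairW, List.length_append, List.length_cons, this]
  ring

theorem two_le_len (I : EndOfLine) : 2 ≤ len I := by
  have h1 : 1 ≤ (Nat.bits I.n).length := by
    have h0 := I.one_le
    have h2 : Nat.bits I.n ≠ [] := by
      intro h
      have := Nat.size_eq_bits_len I.n
      rw [h] at this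
      simp only [List.length_nil] at this
      have := Nat.size_eq_zero.1 this.symm
      omega
    exact List.length_pos_iff.2 h2
  unfold len eolW
  rw [length_pairW]
  omega

theorem one_le_lg (I : EndOfLine) : 1 ≤ lg I :=
  Nat.le_log_of_pow_le (by norm_num) (by rw [pow_one]; exact two_le_len I)

theorem lg_le_len (I : EndOfLine) : lg I ≤ len I := Nat.log_le_self _ _

theorem len_lt (I : EndOfLine) : len I < 2 ^ (lg I + 1) :=
  Nat.lt_pow_succ_log_self (by norm_num) _

/-- polylogarithmic -/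
def QLog (f : EndOfLine → ℕ) : Prop := ∃ k : ℕ, ∀ I, f I ≤ k * lg I ^ k

/-- quasi-linear -/
def QLin (f : EndOfLine → ℕ) : Prop := ∃ k : ℕ, ∀ I, f I ≤ k * len I * lg I ^ k

theorem lg_pow_mono (I : EndOfLine) {a b : ℕ} (h : a ≤ b) : lg I ^ a ≤ lg I ^ b :=
  Nat.pow_le_pow_right (one_le_lg I) h

variable {f g : EndOfLine → ℕ}

theorem QLog.mono (hf : QLog f) (h : ∀ I, g I ≤ f I) : QLog g := by
  obtain ⟨k, hk⟩ := hf
  exact ⟨k, fun I => (h I).trans (hk I)⟩

theorem QLin.mono (hf : QLin f) (h : ∀ I, g I ≤ f I) : QLin g := by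
  obtain ⟨k, hk⟩ := hf
  exact ⟨k, fun I => (h I).trans (hk I)⟩

theorem QLog.const (c : ℕ) : QLog fun _ => c := ⟨c, fun I =>
  Nat.le_mul_of_pos_right _ (Nat.pow_pos (one_le_lg I))⟩

theorem qlog_lg : QLog lg := ⟨1, fun I => by rw [pow_one, one_mul]⟩

theorem qlin_len : QLin len := ⟨1, fun I => by
  rw [one_mul, pow_one]; exact Nat.le_mul_of_pos_right _ (one_le_lg I)⟩

theorem QLog.add (hf : QLog f) (hg : QLog g) : QLog fun I => f I + g I := by
  obtain ⟨k, hk⟩ := hf
  obtain ⟨l, hl⟩ := hg
  refine ⟨k + l, fun I => ?_⟩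
  calc f I + g I ≤ k * lg I ^ k + l * lg I ^ l := add_le_add (hk I) (hl I)
    _ ≤ k * lg I ^ (k + l) + l * lg I ^ (k + l) :=
        add_le_add (Nat.mul_le_mul_left _ (lg_pow_mono I (Nat.le_add_right _ _)))
          (Nat.mul_le_mul_left _ (lg_pow_mono I (Nat.le_add_left _ _)))
    _ = _ := by ring

theorem QLog.mul (hf : QLog f) (hg : QLog g) : QLog fun I => f I * g I := by
  obtain ⟨k, hk⟩ := hf
  obtain ⟨l, hl⟩ := hg
  refine ⟨k * l + (k + l), fun I => ?_⟩
  calc f I * g I ≤ (k * lg I ^ k) * (l * lg I ^ l) := Nat.mul_le_mul (hk I) (hl I)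
    _ = (k * l) * lg I ^ (k + l) := by rw [pow_add]; ring
    _ ≤ (k * l + (k + l)) * lg I ^ (k * l + (k + l)) :=
        Nat.mul_le_mul (Nat.le_add_right _ _) (lg_pow_mono I (Nat.le_add_left _ _))

theorem QLog.pow (hf : QLog f) (n : ℕ) : QLog fun I => f I ^ n := by
  induction n with
  | zero => simpa using QLog.const 1
  | succ n ih => simpa only [pow_succ] using ih.mul hf

theorem QLin.add (hf : QLin f) (hg : QLin g) : QLin fun I => f I + g I := by
  obtain ⟨k, hk⟩ := hf
  obtain ⟨l, hl⟩ := hg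
  refine ⟨k + l, fun I => ?_⟩
  calc f I + g I ≤ k * len I * lg I ^ k + l * len I * lg I ^ l := add_le_add (hk I) (hl I)
    _ ≤ k * len I * lg I ^ (k + l) + l * len I * lg I ^ (k + l) :=
        add_le_add (Nat.mul_le_mul_left _ (lg_pow_mono I (Nat.le_add_right _ _)))
          (Nat.mul_le_mul_left _ (lg_pow_mono I (Nat.le_add_left _ _)))
    _ = _ := by ring

theorem QLin.mul (hf : QLin f) (hg : QLog g) : QLin fun I => f I * g I := by
  obtain ⟨k, hk⟩ := hf
  obtain ⟨l, hl⟩ := hg
  refine ⟨k * l + (k + l), fun I => ?_⟩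
  calc f I * g I ≤ (k * len I * lg I ^ k) * (l * lg I ^ l) := Nat.mul_le_mul (hk I) (hl I)
    _ = (k * l) * len I * lg I ^ (k + l) := by rw [pow_add]; ring
    _ ≤ (k * l + (k + l)) * len I * lg I ^ (k * l + (k + l)) :=
        Nat.mul_le_mul (Nat.mul_le_mul_right _ (Nat.le_add_right _ _))
          (lg_pow_mono I (Nat.le_add_left _ _))

theorem QLin.mul' (hf : QLog f) (hg : QLin g) : QLin fun I => f I * g I :=
  (hg.mul hf).mono fun _ => (Nat.mul_comm _ _).le

/-- polylogarithmic functions are quasi-linear -/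
theorem QLog.qlin (hf : QLog f) : QLin f := by
  obtain ⟨k, hk⟩ := hf
  refine ⟨k, fun I => (hk I).trans ?_⟩
  have h : 1 ≤ len I := le_trans (by norm_num) (two_le_len I)
  calc k * lg I ^ k = k * 1 * lg I ^ k := by ring
    _ ≤ k * len I * lg I ^ k := Nat.mul_le_mul_right _ (Nat.mul_le_mul_left _ h)

theorem QLin.const (c : ℕ) : QLin fun _ => c := (QLog.const c).qlin

/-- the number of binary digits of a quasi-linear function is polylogarithmic -/
theorem QLin.size (hf : QLin f) : QLog fun I => Nat.size (f I) := by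
  obtain ⟨k, hk⟩ := hf
  refine (((QLog.const k).add (qlog_lg.add (QLog.const 1))).add
    ((QLog.const k).mul (qlog_lg.add (QLog.const 1)))).mono fun I => ?_
  rw [Nat.size_le]
  calc f I ≤ k * len I * lg I ^ k := hk I
    _ < 2 ^ k * 2 ^ (lg I + 1) * (2 ^ (lg I + 1)) ^ k := by
        have h1 : k < 2 ^ k := Nat.lt_two_pow_self
        have h2 := len_lt I
        have h3 : lg I ^ k ≤ (2 ^ (lg I + 1)) ^ k :=
          Nat.pow_le_pow_left ((Nat.lt_two_pow_self).le.trans
            (Nat.pow_le_pow_right (by norm_num) (Nat.le_succ _))) k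
        have h4 : k * len I < 2 ^ k * 2 ^ (lg I + 1) := Nat.mul_lt_mul'' h1 h2
        exact lt_of_le_of_lt (Nat.mul_le_mul_left _ h3)
          (Nat.mul_lt_mul_of_pos_right h4 (by positivity))
    _ = 2 ^ (k + (lg I + 1) + k * (lg I + 1)) := by
        rw [← pow_mul, ← pow_add, ← pow_add]
        congr 1
        ring

theorem QLin.of_eq {k : ℕ} (h : ∀ I : EndOfLine,
    f I ≤ k * (eolW I).length * Nat.log 2 (eolW I).length ^ k) : QLin f := ⟨k, h⟩

end Vale.Agent.P330.H838
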