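import Vale.Agent.P330.FM.ModOk
import Vale.Agent.P330.FM.SoundF
import Vale.Agent.P330.H475.Lower

/-!
# The parameters of the family of modules lie in `[0, 1]`
-/

namespace Vale.Agent.P330.H838

open H475 (FData Wd)
open FM

theorem fdatF_ok {S : FSpec} {k : ℕ} (eK : S.K ≃ Fin (k + 2)) {q : CConst} (hq : q.Ok) {τv : ℚ}
    (h0 : 0 ≤ τv) (h1 : τv ≤ 1) (own : Fin k) {ι : Type} {m : ι → ℕ} (I : ι → FInst S)
    (eB : ∀ a, Wd (m a) ≃ (I a).Bl) (hCB : Finite S.CB) :
    (fdatF S eK q τv own I eB).Ok where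
  hold := holdMod_ok eK hq
  step := stepMod_ok eK hq
  check := checkMod_ok eK hq h0 h1 own
  cbH := finite_CBM S
  cbS := finite_CBM S
  cbC := finite_CBM S

end Vale.Agent.P330.H838
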