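import Vale.Agent.P330.H838.GBN
import Vale.Agent.P330.H838.QL
import Vale.Agent.P330.Q.Asm

/-!
# Assembly of the quasi-linear reduction

* lengths of the codes of gates and circuits;
* `pcpq_of`: polynomial time algorithms for the list of gates (of quasi-linear length) and for the
  decoder give `PCPforPPAD` (compare `pcp_of`).
-/

namespace Vale.Agent.P330.H838

open Vale.Agent.Lib.PolyTime

/-! ### Lengths of codes -/

theorem length_bits_le {a B : ℕ} (h : a < 2 ^ B) : (Nat.bits a).length ≤ B := by
  rw [Nat.size_eq_bits_len]
  exact Nat.size_le.2 h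

/-- The length of the code of the parameter of a gate. -/
def plen : Gate → ℕ
  | .const α _ => (ratW α).length
  | .scale α _ _ => (ratW α).length
  | _ => (ratW 0).length

/-- The length of the code of a gate. -/
theorem gateW_length_le {g : Gate} {P B n : ℕ} (hn : n ≤ 2 ^ B) (hp : plen g ≤ P)
    (ho : g.out < n) (hi : ∀ a ∈ g.ins, a < n) : (gateW g).length ≤ 2 * P + 5 * B + 16 := by
  have hk : ∀ k ≤ 8, (Nat.bits k).length ≤ 4 := fun k hk => length_bits_le (by omega)
  have hz : (Nat.bits g.out).length ≤ B := length_bits_le (ho.trans_le hn)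
  have hi' : ∀ a ∈ g.ins, (Nat.bits a).length ≤ B := fun a ha => length_bits_le ((hi a ha).trans_le hn)
  have h0 := hk 0 (by norm_num)
  have h1 := hk 1 (by norm_num)
  have h2 := hk 2 (by norm_num)
  have h3 := hk 3 (by norm_num)
  have h4 := hk 4 (by norm_num)
  have h5 := hk 5 (by norm_num)
  have h6 := hk 6 (by norm_num)
  have h7 := hk 7 (by norm_num)
  have h8 := hk 8 (by norm_num)
  have hb0 : (Nat.bits 0).length = 0 := rfl
  cases g <;> simp only [gateW, length_pairW, plen, Gate.out, Gate.ins, List.mem_cons,
    List.not_mem_nil, or_false, forall_eq_or_imp, forall_eq] at * <;> omega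

theorem listW_length_le {α : Type} (c : α → List Bool) (M : ℕ) :
    ∀ l : List α, (∀ a ∈ l, (c a).length ≤ M) → (listW c l).length ≤ l.length * (2 * M + 1)
  | [], _ => by simp [listW]
  | a :: l, h => by
    have h1 := h a (List.mem_cons_self ..)
    have h2 := listW_length_le c M l fun b hb => h b (List.mem_cons_of_mem _ hb)
    rw [listW, length_pairW, List.length_cons]
    have e : (l.length + 1) * (2 * M + 1) = l.length * (2 * M + 1) + (2 * M + 1) := by ring
    omega

/-! ### The parameters of the gates of a network -/

section net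

variable {Reg Rd CB : Type}

/-- The length of the code of the parameter of an entry of the template. -/
def tplen : Tp Reg Rd CB → ℕ
  | .bit _ => (ratW 0).length + (ratW 1).length
  | .op (.const α) => (ratW α).length
  | .op (.scale α _) => (ratW α).length
  | .op _ => (ratW 0).length

variable [Fintype Reg] [Fintype CB] (defs : Reg → ND Reg Rd CB) (N : ℕ) (rd : Rd → ℕ → ℕ)
  (cb : CB → ℕ → Bool)

theorem plen_siteGate (w j : ℕ) (t : Tp Reg Rd CB) :
    plen (siteGate defs rd cb w j t) ≤ tplen t := by
  cases t with
  | bit κ =>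
    simp only [siteGate, plen, tplen]
    split_ifs <;> omega
  | op o => cases o <;> exact le_rfl

/-- A bound for the lengths of the codes of the parameters. -/
noncomputable def plenB : ℕ := ((tpl defs).map tplen).sum

theorem plen_le {g : Gate} (h : g ∈ gatesL defs N rd cb) : plen g ≤ plenB defs := by
  obtain ⟨w, _, hg⟩ := List.mem_flatMap.1 h
  obtain ⟨j, t, ht, rfl⟩ := mem_siteGates defs rd cb hg
  refine (plen_siteGate defs rd cb w j t).trans ?_
  exact List.single_le_sum (fun _ _ => Nat.zero_le _) _
    (List.mem_map_of_mem (List.mem_of_getElem? ht))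

/-- The length of the code of the list of the gates. -/
theorem listW_gatesL_le [Nonempty Reg] (hN : 0 < N) (hrd : ∀ r w, w < N → rd r w < N) :
    (listW gateW (gatesL defs N rd cb)).length ≤
      N * KK defs * (2 * (2 * plenB defs + 5 * Nat.size (N * KK defs) + 16) + 1) := by
  have h := listW_length_le gateW (2 * plenB defs + 5 * Nat.size (N * KK defs) + 16)
    (gatesL defs N rd cb) fun g hg => gateW_length_le (n := N * KK defs)
      (Nat.size_le.1 le_rfl).le (plen_le defs N rd cb hg)
      ((circ defs N rd cb hN hrd).out_lt g hg) ((circ defs N rd cb hN hrd).ins_lt g hg)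
  rwa [length_gatesL] at h

end net

/-! ### The assembly lemma -/

theorem circuitW_length (G : GenCircuit) :
    (circuitW G).length = 2 * G.nodes + 1 + (listW gateW G.gates).length := by
  unfold circuitW
  rw [length_pairW, List.length_replicate]

/-- **The assembly lemma**: polynomial time algorithms `nodes`, `gates`, `dec` which work on all
instances but finitely many; the code of the gates has quasi-linear length. -/
theorem pcpq_of {ε δ : ℚ} (hε : 0 < ε) (hδ : 0 < δ)
    {nodes : EndOfLine → ℕ} (hn : PT ∅ nodes) (hnb : PBd nodes)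
    {gates : EndOfLine → List Gate} (hg : PT ∅ gates)
    {dec : EndOfLine × List ℚ → Raw} (hd : PT ∅ dec) (m : ℕ)
    (hwf : ∀ I : EndOfLine, m ≤ (eolW I).length → WFNet (nodes I) (gates I))
    (hsound : ∀ I : EndOfLine, m ≤ (eolW I).length → ∀ x : List ℚ, (∀ r ∈ x, 0 ≤ r ∧ r ≤ 1) →
      (1 - (δ : ℝ)) * (gates I).length ≤
        ({g : Gate | g ∈ gates I ∧ g.Sat (ε : ℝ) (val x)}.ncard : ℝ) →
      I.IsSolution (dec (I, x)).w)
    (hQn : QLin nodes) (hQg : QLin fun I => (listW gateW (gates I)).length) :
    ∃ C : ℕ, ∀ p : Polynomial ℕ, (∀ᶠ M in Filter.atTop, C * M ≤ p.eval M) →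
      PCPforPPAD ε δ p := by
  classical
  obtain ⟨C, hC⟩ := exists_acceptable (ε : ℝ) (by exact_mod_cast hε)
  refine ⟨max C 6, fun p hp => ?_⟩
  obtain ⟨m0, hm0⟩ := Filter.eventually_atTop.1 hp
  have hwf' : ∀ I, big m I = true → WFNet (nodes I + m0) (gates I) := fun I h =>
    (hwf I (big_iff.1 h)).mono (Nat.le_add_right _ _)
  let R : EndOfLine → GenCircuit := fun I =>
    if h : big m I = true then (hwf' I h).toCircuit else oneGate m0
  have hR : PT ∅ R := by
    have h1 : PT ∅ (fun I : EndOfLine => bif big m I then (Un.mk (nodes I + m0), gates I)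
        else (Un.mk (m0 + 1), [Gate.const 0 0])) :=
      PT.cond (PT_big m) ((PT.mkUn (hn.add (PT.const m0)) (hnb.add (PBd.const m0))).pair hg)
        (PT.const _)
    obtain ⟨g, h2, h3⟩ := h1
    refine ⟨g, h2, fun q => ?_⟩
    rw [h3]
    show enc (bif big m q then (Un.mk (nodes q + m0), gates q)
        else (Un.mk (m0 + 1), [Gate.const 0 0])) = circuitW (R q)
    by_cases h : big m q = true
    · simp only [R]
      rw [dif_pos h, h, cond_true, enc_pair, pr_eq_pairW, enc_un, enc_listGate]
      rfl
    · simp only [R]
      rw [dif_neg h, Bool.eq_false_iff.2 h, cond_false, enc_pair, pr_eq_pairW, enc_un,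
        enc_listGate]
      rfl
  let D : EndOfLine × List ℚ → Raw := fun q =>
    bif big m q.1 then dec q
    else Raw.mk (if (eolW q.1).length < m then q.1.sol else [])
  have hD : PT ∅ D :=
    PT.cond ((PT_big m).comp PT.fst') hd ((PT_patchSol m).comp PT.fst')
  refine ⟨R, fun q => (D q).w, ⟨?_, ?_, fun I => ?_⟩, ?_⟩
  · obtain ⟨g, h1, h2⟩ := hR
    exact polyTime_iff.2 ⟨g, h1, h2⟩
  · obtain ⟨g, h1, h2⟩ := hD
    refine polyTime_iff.2 ⟨g, h1, fun q => ?_⟩
    have h3 := h2 q
    rw [enc_pair, pr_eq_pairW, enc_listRat] at h3
    exact h3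
  · by_cases h : big m I = true
    · have hR1 : R I = (hwf' I h).toCircuit := by
        simp only [R]
        rw [dif_pos h]
      have hlen : m0 ≤ (circuitW (R I)).length := by
        refine le_trans ?_ (nodes_le _)
        rw [hR1]
        show m0 ≤ nodes I + m0
        omega
      refine ⟨?_, fun x hx => ?_⟩
      · obtain ⟨x, hx, _⟩ := hC (R I) δ (Polynomial.C C * Polynomial.X) (by exact_mod_cast hδ.le)
          (fun M => by simp)
        refine ⟨x, hx.1, hx.2.1.trans ?_, hx.2.2⟩
        refine le_trans ?_ (hm0 _ hlen)
        simp only [Polynomial.eval_mul, Polynomial.eval_C, Polynomial.eval_X]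
        exact Nat.mul_le_mul_right _ (le_max_left _ _)
      · have hD1 : D (I, x) = dec (I, x) := by
          simp only [D]
          rw [h, cond_true]
        rw [hR1] at hx
        show I.IsSolution (D (I, x)).w
        rw [hD1]
        refine hsound I (big_iff.1 h) x hx.1.2 ?_
        have h2 := hx.2.2
        exact h2
    · have hR1 : R I = oneGate m0 := by
        simp only [R]
        rw [dif_neg h]
      have hlt : (eolW I).length < m := by
        by_contra h1
        exact h (big_iff.2 (not_lt.1 h1))
      show (∃ x, Acceptable ε δ p (R I) x) ∧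
        ∀ x, Acceptable ε δ p (R I) x → I.IsSolution (D (I, x)).w
      rw [hR1]
      refine ⟨⟨_, acceptable_oneGate (by exact_mod_cast hε) (by exact_mod_cast hδ)
        (le_max_right C 6) hm0⟩, fun x _ => ?_⟩
      have hD1 : D (I, x) = Raw.mk I.sol := by
        simp only [D]
        rw [Bool.eq_false_iff.2 h, cond_false, if_pos hlt]
      rw [hD1]
      exact I.isSolution_sol
  · -- the length of the circuit
    have hq : QLin fun I => (circuitW (R I)).length := by
      refine (((QLin.mul hQn (QLog.const 2)).add (QLin.const (2 * m0 + 1))).add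
        (hQg.add (QLin.const (circuitW (oneGate m0)).length))).mono fun I => ?_
      by_cases h : big m I = true
      · have hR1 : R I = (hwf' I h).toCircuit := by
          simp only [R]
          rw [dif_pos h]
        rw [hR1, circuitW_length]
        show 2 * (nodes I + m0) + 1 + (listW gateW (gates I)).length ≤ _
        omega
      · have hR1 : R I = oneGate m0 := by
          simp only [R]
          rw [dif_neg h]
        rw [hR1]
        omega
    exact hq

end Vale.Agent.P330.H838
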