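import Vale.Agent.Lib.PCP.CL.Main
import Vale.Agent.P330.PTEol

/-!
# Uniform circuits from polynomial time functions

Every function of words which is computed in polynomial time has Boolean circuits of polynomial
size, which are computed in polynomial time from the (unary) numbers of inputs and outputs.

* `Ordd`: the gates of `Vale.Agent.Lib.PCP.CL.gen` are in topological order;
* `circP`: the circuit;
* `exists_circ`: the theorem.
-/

namespace Vale.Agent.P330.H838

open Vale.Agent.Lib.PolyTime
open Vale.Agent.Lib.PCP.CL (gen cost blk Rep cell Ok pushIx popIx ix_lt)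

/-- a gate `(o, c, a, b)`: the variable `o` is `if c then a else b` -/
abbrev MG := Vale.Agent.Lib.PCP.CL.Gate

/-! ### Topological order -/

/-- The gates have the outputs `ν, ν + 1, …` and read earlier variables. -/
def Ordd (ν : ℕ) (gs : List MG) : Prop :=
  ∀ k g, gs[k]? = some g → g.1 = ν + k ∧ g.2.1 < ν + k ∧ g.2.2.1 < ν + k ∧ g.2.2.2 < ν + k

theorem Ordd.nil (ν : ℕ) : Ordd ν [] := fun k g h => by simp at h

theorem Ordd.append {ν : ℕ} {g₁ g₂ : List MG} (h₁ : Ordd ν g₁) (h₂ : Ordd (ν + g₁.length) g₂) :
    Ordd ν (g₁ ++ g₂) := by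
  intro k g h
  rcases lt_or_ge k g₁.length with hk | hk
  · rw [List.getElem?_append_left hk] at h
    exact h₁ k g h
  · rw [List.getElem?_append_right hk] at h
    have := h₂ _ g h
    omega

theorem length_blk (ν n : ℕ) (f : ℕ → ℕ × ℕ × ℕ) : (blk ν n f).length = n := by simp [blk]

theorem Ordd.blk {ν n : ℕ} {f : ℕ → ℕ × ℕ × ℕ}
    (h : ∀ t < n, (f t).1 < ν ∧ (f t).2.1 < ν ∧ (f t).2.2 < ν) : Ordd ν (blk ν n f) := by
  intro k g hk
  have hlt : k < n := by
    have := (List.getElem?_eq_some_iff.1 hk).1
    rwa [length_blk] at this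
  unfold Vale.Agent.Lib.PCP.CL.blk at hk
  rw [List.getElem?_map, List.getElem?_range hlt] at hk
  simp only [Option.map_some, Option.some.injEq] at hk
  subst hk
  have := h k hlt
  dsimp only
  omega

theorem length_flatMap_range {K n : ℕ} {f : ℕ → List MG} (h : ∀ j < n, (f j).length = K) :
    ((List.range n).flatMap f).length = n * K := by
  induction n with
  | zero => simp
  | succ n ih =>
    rw [List.range_succ, List.flatMap_append, List.length_append, ih fun j hj => h j (by omega)]
    simp [h n (by omega)]
    ring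

theorem Ordd.flatMap {ν K n : ℕ} {f : ℕ → List MG} (hl : ∀ j < n, (f j).length = K)
    (h : ∀ j < n, Ordd (ν + j * K) (f j)) : Ordd ν ((List.range n).flatMap f) := by
  induction n with
  | zero => simpa using Ordd.nil ν
  | succ n ih =>
    rw [List.range_succ, List.flatMap_append]
    refine (ih (fun j hj => hl j (by omega)) fun j hj => h j (by omega)).append ?_
    rw [length_flatMap_range fun j hj => hl j (by omega)]
    simpa using h n (by omega)

theorem length_gen (m L T : ℕ) (p : Prog) :
    ∀ α ν, (gen m L T p α ν).length = cost m L T p + m * L := by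
  induction p with
  | skip => intro α ν; simp [gen, cost, length_blk]
  | push i b => intro α ν; simp [gen, cost, length_blk]
  | pop i => intro α ν; simp [gen, cost, length_blk]
  | query i j => intro α ν; simp [gen, cost, length_blk]
  | seq p q ihp ihq =>
    intro α ν
    simp only [gen, cost, List.length_append, ihp, ihq]
    ring
  | ite i p q r ihp ihq ihr =>
    intro α ν
    simp only [gen, cost, List.length_append, ihp, ihq, ihr, length_blk]
    ring
  | loop i p ih =>
    intro α ν
    simp only [gen, cost, List.length_append, length_blk]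
    rw [length_flatMap_range (K := cost m L T p + 2 * (m * L)) fun j _ => by
      rw [List.length_append, ih, length_blk]; ring]
    ring

theorem gen_ordd {m L T : ℕ} (hL : 2 ≤ L) : ∀ (p : Prog), p.bound ≤ m → ∀ (α ν : ℕ), 2 ≤ ν →
    α + m * L ≤ ν → Ordd ν (gen m L T p α ν) := by
  have hpush : ∀ (i : ℕ) (b : Bool) (α ν : ℕ), 2 ≤ ν → α + m * L ≤ ν → ∀ t < m * L,
      pushIx L α i b t < ν := by
    intro i b α ν h2 hα t ht
    rw [pushIx]
    split_ifs
    · omega
    · cases b <;> simp <;> omega
    · omega
    · omega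
  have hpop : ∀ (i α ν : ℕ), 2 ≤ ν → α + m * L ≤ ν → ∀ t < m * L, popIx L α i t < ν := by
    intro i α ν h2 hα t ht
    rw [popIx]
    split_ifs with h3 h4
    · have h5 : t + 2 < m * L := by
        have h6 := Nat.div_add_mod t L
        have h7 : t / L < m := Nat.div_lt_of_lt_mul (by rw [Nat.mul_comm]; exact ht)
        have h8 : L * (t / L) + L ≤ m * L := by
          calc L * (t / L) + L = (t / L + 1) * L := by ring
            _ ≤ m * L := Nat.mul_le_mul_right _ h7
        omega
      omega
    · omega
    · omega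
  intro p
  induction p with
  | skip =>
    intro _ α ν h2 hα
    rw [gen]
    exact Ordd.blk fun t ht => ⟨by dsimp only; omega, by dsimp only; omega, by dsimp only; omega⟩
  | push i b =>
    intro _ α ν h2 hα
    rw [gen]
    exact Ordd.blk fun t ht => ⟨by dsimp only; omega, hpush i b α ν h2 hα t ht,
      by dsimp only; omega⟩
  | pop i =>
    intro _ α ν h2 hα
    rw [gen]
    exact Ordd.blk fun t ht => ⟨by dsimp only; omega, hpop i α ν h2 hα t ht,
      by dsimp only; omega⟩
  | query i j =>
    intro _ α ν h2 hα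
    rw [gen]
    exact Ordd.blk fun t ht => ⟨by dsimp only; omega, hpush j false α ν h2 hα t ht,
      by dsimp only; omega⟩
  | seq p q ihp ihq =>
    intro hb α ν h2 hα
    simp only [Prog.bound] at hb
    rw [gen]
    refine (ihp (by omega) α ν h2 hα).append ?_
    rw [length_gen, ← Nat.add_assoc]
    exact ihq (by omega) (ν + cost m L T p) (ν + cost m L T p + m * L) (by omega) (by omega)
  | ite i p q r ihp ihq ihr =>
    intro hb α ν h2 hα
    simp only [Prog.bound] at hb
    rw [gen]
    have hi : i < m := by omega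
    have h0 : i * L + 0 < m * L := ix_lt hi (by omega)
    have h1 : i * L + 1 < m * L := ix_lt hi (by omega)
    refine (ihp (by omega) α ν h2 hα).append ?_
    rw [length_gen, ← Nat.add_assoc]
    refine (ihq (by omega) α _ (by omega) (by omega)).append ?_
    rw [length_gen, show ν + cost m L T p + m * L + (cost m L T q + m * L) =
      ν + cost m L T p + cost m L T q + 2 * (m * L) by ring]
    refine (ihr (by omega) α _ (by omega) (by omega)).append ?_
    rw [length_gen, show ν + cost m L T p + cost m L T q + 2 * (m * L) +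
        (cost m L T r + m * L) =
      ν + cost m L T p + cost m L T q + cost m L T r + 3 * (m * L) by ring]
    refine (Ordd.blk fun t ht => ?_).append ?_
    · dsimp only
      exact ⟨by omega, by omega, by omega⟩
    · rw [length_blk, show ν + cost m L T p + cost m L T q + cost m L T r + 3 * (m * L) + m * L =
        ν + cost m L T p + cost m L T q + cost m L T r + 4 * (m * L) by ring]
      refine Ordd.blk fun t ht => ?_
      dsimp only
      exact ⟨by omega, by omega, by omega⟩
  | loop i p ihp =>
    intro hb α ν h2 hα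
    simp only [Prog.bound] at hb
    rw [gen]
    have hi : i < m := by omega
    have h0 : i * L + 0 < m * L := ix_lt hi (by omega)
    set K := cost m L T p + 2 * (m * L) with hK
    refine (Ordd.blk fun t ht => ?_).append ?_
    · dsimp only
      exact ⟨by omega, by omega, by omega⟩
    · rw [length_blk]
      refine Ordd.flatMap (K := K) (fun j _ => by
        rw [List.length_append, length_gen, length_blk, hK]; ring) fun j hj => ?_
      have e1 : (j + 1) * K = j * K + K := by ring
      have h3 := ihp (by omega) (ν + j * K) (ν + j * K + m * L) (by omega) (by omega)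
      rw [show ν + m * L + j * K = ν + j * K + m * L by ring]
      refine h3.append ?_
      rw [length_gen, show ν + j * K + m * L + (cost m L T p + m * L) = ν + (j + 1) * K by
        rw [e1, hK]; ring]
      refine Ordd.blk fun t ht => ?_
      dsimp only
      rw [e1, hK]
      exact ⟨by omega, by omega, by omega⟩

/-! ### Values of the wires -/

theorem eval_congr {g : BGate} {k : ℕ} (hg : g.Below k) {w w' : List Bool}
    (h : ∀ i < k, w.getD i false = w'.getD i false) : g.eval w = g.eval w' := by
  cases g with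
  | and i j => simp only [BGate.eval, h i hg.1, h j hg.2]
  | or i j => simp only [BGate.eval, h i hg.1, h j hg.2]
  | not i => simp only [BGate.eval, h i hg]

/-- the values of all wires -/
def wiresL (gs : List BGate) (x : List Bool) : List Bool :=
  gs.foldl (fun w g => w ++ [g.eval w]) x

theorem wiresL_snoc (gs : List BGate) (g : BGate) (x : List Bool) :
    wiresL (gs ++ [g]) x = wiresL gs x ++ [g.eval (wiresL gs x)] := by
  simp [wiresL, List.foldl_append]

theorem length_wiresL (gs : List BGate) (x : List Bool) :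
    (wiresL gs x).length = x.length + gs.length := foldl_wires_length gs x

theorem getD_snoc_left {w : List Bool} {b : Bool} {i : ℕ} (h : i < w.length) :
    (w ++ [b]).getD i false = w.getD i false := by
  rw [List.getD_append _ _ _ _ h]

theorem wiresL_input (gs : List BGate) (x : List Bool) {i : ℕ} (hi : i < x.length) :
    (wiresL gs x).getD i false = x.getD i false := by
  induction gs using List.reverseRecOn with
  | nil => rfl
  | append_singleton gs g ih =>
    rw [wiresL_snoc, getD_snoc_left (by rw [length_wiresL]; omega), ih]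

theorem wiresL_gate (gs : List BGate) (x : List Bool)
    (hb : ∀ k, ∀ h : k < gs.length, gs[k].Below (x.length + k)) :
    ∀ k, ∀ h : k < gs.length, (wiresL gs x).getD (x.length + k) false =
      gs[k].eval (wiresL gs x) := by
  induction gs using List.reverseRecOn with
  | nil => intro k h; simp at h
  | append_singleton gs g ih =>
    have hb' : ∀ k, ∀ h : k < gs.length, gs[k].Below (x.length + k) := by
      intro k h
      have := hb k (by simp; omega)
      rwa [List.getElem_append_left h] at this
    have hg : g.Below (x.length + gs.length) := by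
      have h1 : (gs ++ [g])[gs.length]'(by simp) = g := by simp
      have h2 := hb gs.length (by simp)
      rwa [h1] at h2
    intro k h
    rw [wiresL_snoc]
    rcases lt_or_ge k gs.length with hk | hk
    · rw [getD_snoc_left (by rw [length_wiresL]; omega), ih hb' k hk, List.getElem_append_left hk]
      refine eval_congr (hb' k hk) fun i hi => ?_
      rw [getD_snoc_left (by rw [length_wiresL]; omega)]
    · have hk' : k = gs.length := by
        simp at h
        omega
      subst hk'
      have e1 : (wiresL gs x ++ [g.eval (wiresL gs x)]).getD (x.length + gs.length) false =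
          g.eval (wiresL gs x) := by
        rw [List.getD_append_right _ _ _ _ (by rw [length_wiresL]), length_wiresL, Nat.sub_self]
        rfl
      rw [e1, List.getElem_append_right (by omega)]
      simp only [Nat.sub_self, List.getElem_cons_zero]
      exact eval_congr hg fun i hi => (getD_snoc_left (by rw [length_wiresL]; omega)).symm

/-! ### The circuit -/

/-- The wire of the variable `v`: the wires `n + 1`, `n + 2` are constants; the variables
`2, …, 2 + M - 1` are the initial memory. -/
def wire (n M v : ℕ) : ℕ :=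
  if v = 0 then n + 1 else if v = 1 then n + 2 else if v < 2 + M then
    (if v - 2 < 2 * n then (if (v - 2) % 2 = 0 then n + 2 else (v - 2) / 2) else n + 1)
  else n + 6 + 4 * (v - (2 + M))

/-- The Boolean gates of a gate. -/
def mg (n M : ℕ) (g : MG) : List BGate :=
  [.and (wire n M g.2.1) (wire n M g.2.2.1), .not (wire n M g.2.1),
    .and (n + 4 + 4 * (g.1 - (2 + M))) (wire n M g.2.2.2),
    .or (n + 3 + 4 * (g.1 - (2 + M))) (n + 5 + 4 * (g.1 - (2 + M)))]

/-- The gates of the circuit of the gates `gs`. -/
def gatesOf (n M : ℕ) (gs : List MG) : List BGate :=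
  BGate.not 0 :: BGate.and 0 n :: BGate.or 0 n :: gs.flatMap (mg n M)

theorem flatMap_get {X Y : Type} {f : X → List Y} (hf : ∀ a, (f a).length = 4) :
    ∀ (l : List X) (k r : ℕ), r < 4 → (l.flatMap f)[4 * k + r]? = (l[k]?).bind fun a => (f a)[r]? := by
  intro l
  induction l with
  | nil => intro k r _; simp
  | cons a l ih =>
    intro k r hr
    rw [List.flatMap_cons]
    cases k with
    | zero =>
      rw [List.getElem?_append_left (by rw [hf]; omega)]
      simp
    | succ k =>
      rw [List.getElem?_append_right (by rw [hf]; omega), hf,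
        show 4 * (k + 1) + r - 4 = 4 * k + r by omega, ih k r hr]
      simp

theorem length_mg (n M : ℕ) (g : MG) : (mg n M g).length = 4 := rfl

theorem length_flatMap_mg (n M : ℕ) (gs : List MG) :
    (gs.flatMap (mg n M)).length = 4 * gs.length := by
  induction gs with
  | nil => rfl
  | cons g gs ih =>
    rw [List.flatMap_cons, List.length_append, ih, length_mg, List.length_cons]
    ring

theorem length_gatesOf (n M : ℕ) (gs : List MG) : (gatesOf n M gs).length = 3 + 4 * gs.length := by
  unfold gatesOf
  simp only [List.length_cons, length_flatMap_mg]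
  ring

theorem gatesOf_get (n M : ℕ) (gs : List MG) (k r : ℕ) (hr : r < 4) :
    (gatesOf n M gs)[3 + 4 * k + r]? = (gs[k]?).bind fun a => (mg n M a)[r]? := by
  rw [← flatMap_get (length_mg n M) gs k r hr]
  unfold gatesOf
  rw [show 3 + 4 * k + r = (4 * k + r) + 1 + 1 + 1 by ring]
  simp only [List.getElem?_cons_succ]

theorem wire_lt {n M v k : ℕ} (hv : v < 2 + M + k) : wire n M v < n + 3 + 4 * k := by
  unfold wire
  split_ifs <;> omega

theorem gatesOf_below {n M : ℕ} (hn : 1 ≤ n) {gs : List MG} (ho : Ordd (2 + M) gs) :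
    ∀ j, ∀ h : j < (gatesOf n M gs).length, (gatesOf n M gs)[j].Below (n + j) := by
  intro j h
  rw [length_gatesOf] at h
  rcases lt_or_ge j 3 with h3 | h3
  · have hj : j = 0 ∨ j = 1 ∨ j = 2 := by omega
    rcases hj with rfl | rfl | rfl
    · show 0 < n + 0
      omega
    · show 0 < n + 1 ∧ n < n + 1
      omega
    · show 0 < n + 2 ∧ n < n + 2
      omega
  · obtain ⟨k, r, hr, rfl⟩ : ∃ k r, r < 4 ∧ j = 3 + 4 * k + r :=
      ⟨(j - 3) / 4, (j - 3) % 4, Nat.mod_lt _ (by norm_num), by omega⟩
    have hk : k < gs.length := by omega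
    have hg := gatesOf_get n M gs k r hr
    rw [List.getElem?_eq_getElem hk, Option.bind_some] at hg
    obtain ⟨h1, h2, h3', h4⟩ := ho k gs[k] (List.getElem?_eq_getElem hk)
    have w1 := wire_lt (n := n) h2
    have w2 := wire_lt (n := n) h3'
    have w3 := wire_lt (n := n) h4
    have e1 : gs[k].1 - (2 + M) = k := by omega
    have hlen : 3 + 4 * k + r < (gatesOf n M gs).length := by rw [length_gatesOf]; omega
    rw [List.getElem?_eq_getElem hlen] at hg
    have hr' : r = 0 ∨ r = 1 ∨ r = 2 ∨ r = 3 := by omega
    rcases hr' with rfl | rfl | rfl | rfl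
    · have : (gatesOf n M gs)[3 + 4 * k + 0] = .and (wire n M gs[k].2.1) (wire n M gs[k].2.2.1) := by
        simpa [mg] using hg
      rw [this]
      show _ ∧ _
      omega
    · have : (gatesOf n M gs)[3 + 4 * k + 1] = .not (wire n M gs[k].2.1) := by
        simpa [mg] using hg
      rw [this]
      show wire n M gs[k].2.1 < _
      omega
    · have : (gatesOf n M gs)[3 + 4 * k + 2] =
          .and (n + 4 + 4 * (gs[k].1 - (2 + M))) (wire n M gs[k].2.2.2) := by
        simpa [mg] using hg
      rw [this, e1]
      show _ ∧ _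
      omega
    · have : (gatesOf n M gs)[3 + 4 * k + 3] =
          .or (n + 3 + 4 * (gs[k].1 - (2 + M))) (n + 5 + 4 * (gs[k].1 - (2 + M))) := by
        simpa [mg] using hg
      rw [this, e1]
      show _ ∧ _
      omega

/-- The value of the variable `v`. -/
def sg (n M : ℕ) (gs : List MG) (x : List Bool) (v : ℕ) : Bool :=
  (wiresL (gatesOf n M gs) x).getD (wire n M v) false

section value

variable {n M : ℕ} (hn : 1 ≤ n) {gs : List MG} (ho : Ordd (2 + M) gs) {x : List Bool}
  (hx : x.length = n)

include hn ho hx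

theorem wiresL_at {j : ℕ} {g : BGate} (hg : (gatesOf n M gs)[j]? = some g) :
    (wiresL (gatesOf n M gs) x).getD (n + j) false = g.eval (wiresL (gatesOf n M gs) x) := by
  obtain ⟨h, rfl⟩ := List.getElem?_eq_some_iff.1 hg
  have := wiresL_gate (gatesOf n M gs) x (by rw [hx]; exact gatesOf_below hn ho) j h
  rwa [hx] at this

theorem sg_const : (wiresL (gatesOf n M gs) x).getD (n + 1) false = false ∧
    (wiresL (gatesOf n M gs) x).getD (n + 2) false = true := by
  have h0 := wiresL_at hn ho hx (j := 0) (g := .not 0) rfl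
  have h1 := wiresL_at hn ho hx (j := 1) (g := .and 0 n) rfl
  have h2 := wiresL_at hn ho hx (j := 2) (g := .or 0 n) rfl
  simp only [BGate.eval, Nat.add_zero] at h0 h1 h2
  rw [h1, h2, h0]
  cases (wiresL (gatesOf n M gs) x).getD 0 false <;> simp

theorem sg_zero : sg n M gs x 0 = false := (sg_const hn ho hx).1

theorem sg_one : sg n M gs x 1 = true := (sg_const hn ho hx).2

theorem sg_ok : ∀ g ∈ gs, Ok (sg n M gs x) g := by
  intro g hg
  obtain ⟨k, hk⟩ := List.getElem?_of_mem hg
  obtain ⟨h1, h2, h3, h4⟩ := ho k g hk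
  have e1 : g.1 - (2 + M) = k := by omega
  have hh : ∀ r < 4, (gatesOf n M gs)[3 + 4 * k + r]? = (mg n M g)[r]? := by
    intro r hr
    rw [gatesOf_get n M gs k r hr, hk, Option.bind_some]
  have g0 := wiresL_at hn ho hx (hh 0 (by norm_num))
  have g1 := wiresL_at hn ho hx (hh 1 (by norm_num))
  have g2 := wiresL_at hn ho hx (hh 2 (by norm_num))
  have g3 := wiresL_at hn ho hx (hh 3 (by norm_num))
  simp only [BGate.eval, e1] at g0 g1 g2 g3
  have a1 : n + (3 + 4 * k + 0) = n + 3 + 4 * k := by ring
  have a2 : n + (3 + 4 * k + 1) = n + 4 + 4 * k := by ring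
  have a3 : n + (3 + 4 * k + 2) = n + 5 + 4 * k := by ring
  have a4 : n + (3 + 4 * k + 3) = n + 6 + 4 * k := by ring
  rw [a1] at g0
  rw [a2] at g1
  rw [a3, g1] at g2
  rw [a4, g0, g2] at g3
  have e2 : wire n M g.1 = n + 6 + 4 * k := by
    unfold wire
    rw [if_neg (by omega), if_neg (by omega), if_neg (by omega), e1]
  unfold Ok sg
  rw [e2, g3]
  cases (wiresL (gatesOf n M gs) x).getD (wire n M g.2.1) false <;> simp

theorem sg_rep {m L : ℕ} (hM : M = m * L) (hL : 2 * n ≤ L) :
    Rep m L (sg n M gs x) 2 (start x []) := by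
  intro i hi k hk
  have hlt : i * L + k < m * L := ix_lt hi hk
  have e0 : wire n M (2 + (i * L + k)) = if i * L + k < 2 * n then
      (if (i * L + k) % 2 = 0 then n + 2 else (i * L + k) / 2) else n + 1 := by
    unfold wire
    rw [if_neg (by omega), if_neg (by omega), if_pos (by omega),
      show 2 + (i * L + k) - 2 = i * L + k by omega]
  unfold sg
  rw [e0]
  obtain ⟨c1, c2⟩ := sg_const hn ho hx
  rcases Nat.eq_zero_or_pos i with rfl | hi0
  · have e1 : start x [] 0 = x := by simp [start]
    rw [e1, Vale.Agent.Lib.PCP.CL.cell_eq, zero_mul, zero_add, hx]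
    split_ifs with h1 h2 h3
    · rw [c2, eq_comm, decide_eq_true_iff]; omega
    · rw [wiresL_input _ _ (by rw [hx]; omega)]
    · rw [c1, eq_comm, decide_eq_false_iff_not]; omega
    · rw [c1, List.getD_eq_default _ _ (by rw [hx]; omega)]
  · have e1 : start x [] i = [] := by simp only [start]; split_ifs <;> first | omega | rfl
    have h1 : L ≤ i * L := Nat.le_mul_of_pos_left _ hi0
    rw [e1, Vale.Agent.Lib.PCP.CL.cell_nil, if_neg (by omega), c1]

end value

/-- **The circuit** with `n` inputs and `l` outputs of the program `p` (`m` stacks of height at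
most `L / 2`, at most `T` steps). -/
def circP (p : Prog) (m L T n l : ℕ) : BoolCircuit where
  gates := gatesOf n (m * L) (gen m L T p 2 (2 + m * L))
  outs := (List.range l).map fun k => wire n (m * L) (2 + m * L + cost m L T p + (2 * k + 1))

theorem circ_ok {p : Prog} {m L T n l : ℕ} (hb : p.bound ≤ m) (hm : 0 < m) (hn : 1 ≤ n)
    (hL : 2 ≤ L) (hl : 2 * l ≤ L) : (circP p m L T n l).outs.length = l ∧
    (∀ i ∈ (circP p m L T n l).outs, i < n + (circP p m L T n l).gates.length) ∧
    ∀ k, ∀ h : k < (circP p m L T n l).gates.length, (circP p m L T n l).gates[k].Below (n + k) := by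
  have ho := gen_ordd (T := T) hL p hb 2 (2 + m * L) (by omega) le_rfl
  refine ⟨by simp [circP], ?_, gatesOf_below hn ho⟩
  intro i hi
  simp only [circP, List.mem_map, List.mem_range] at hi
  obtain ⟨k, hk, rfl⟩ := hi
  have hlt : 2 * k + 1 < m * L := by
    have : 1 * L ≤ m * L := Nat.mul_le_mul_right _ hm
    omega
  have := wire_lt (n := n) (M := m * L) (v := 2 + m * L + cost m L T p + (2 * k + 1))
    (k := cost m L T p + m * L) (by omega)
  simp only [circP, length_gatesOf, length_gen]
  omega

theorem circ_eval {p : Prog} {m L T n l : ℕ} (hb : p.bound ≤ m) (hm : 0 < m) (hn : 1 ≤ n)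
    (hL : 2 * (n + T) ≤ L) (hl : 2 * l ≤ L) {f : Word → Word}
    (hf : ∀ x : Word, x.length = n → ∃ t s, Eval ∅ p (start x []) t s ∧ t ≤ T ∧ s 0 = f x)
    {x : List Bool} (hx : x.length = n) :
    (circP p m L T n l).eval x = (List.range l).map fun k => (f x).getD k false := by
  obtain ⟨t, s, he, ht, hs⟩ := hf x hx
  have hL2 : 2 ≤ L := by omega
  set gs := gen m L T p 2 (2 + m * L) with hgs
  have ho : Ordd (2 + m * L) gs := gen_ordd (T := T) hL2 p hb 2 (2 + m * L) (by omega) le_rfl
  have h0 := sg_zero hn ho hx
  have h1 := sg_one hn ho hx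
  have hr := sg_rep hn ho hx rfl (L := L) (by omega : 2 * n ≤ L)
  have hlen : ∀ i, 2 * ((start x [] i).length + t) ≤ L := by
    intro i
    have : (start x [] i).length ≤ n := by
      simp only [start]
      split_ifs
      · exact hx.le
      · simp
      · simp
    omega
  have hfin := Vale.Agent.Lib.PCP.CL.gen_sound hL2 h0 h1 p hb 2 (2 + m * L) _ t s he ht hlen hr
    (sg_ok hn ho hx)
  show ((circP p m L T n l).outs.map fun i => (wiresL (circP p m L T n l).gates x).getD i false) = _
  simp only [circP, List.map_map]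
  refine List.map_congr_left fun k hk => ?_
  rw [List.mem_range] at hk
  have h2 := hfin 0 hm (2 * k + 1) (by omega)
  rw [zero_mul, zero_add, hs, Vale.Agent.Lib.PCP.CL.cell_eq, if_neg (by omega),
    show (2 * k + 1) / 2 = k by omega] at h2
  exact h2

/-! ### Polynomial time -/

section PT

variable {A : Set Word} {γ : Type} [Enc γ]

theorem pt_wire {n M v : γ → ℕ} (hn : PT A n) (hM : PT A M) (hv : PT A v) :
    PT A (fun a => wire (n a) (M a) (v a)) := by
  have h2 : PT A (fun a => v a - 2) := hv.sub (PT.const 2)
  exact PT.ite (PT.eqNat hv (PT.const 0)) (hn.add (PT.const 1))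
    (PT.ite (PT.eqNat hv (PT.const 1)) (hn.add (PT.const 2))
      (PT.ite (PT.lt hv ((PT.const 2).add hM))
        (PT.ite (PT.lt h2 ((PT.const 2).mul hn))
          (PT.ite (PT.eqNat (h2.mod (PT.const 2)) (PT.const 0)) (hn.add (PT.const 2))
            (h2.div (PT.const 2))) (hn.add (PT.const 1)))
        ((hn.add (PT.const 6)).add ((PT.const 4).mul (hv.sub ((PT.const 2).add hM))))))

/-- a Boolean gate from its contents -/
def mkG (t : ℕ × ℕ × ℕ) : BGate :=
  if t.1 = 0 then .and t.2.1 t.2.2 else if t.1 = 1 then .or t.2.1 t.2.2 else .not t.2.1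

theorem pt_and {i j : γ → ℕ} (hi : PT A i) (hj : PT A j) : PT A (fun a => BGate.and (i a) (j a)) := by
  obtain ⟨F, hF, hF'⟩ := (PT.const (A := A) (α := γ) 0).pair (hi.pair hj)
  refine ⟨F, hF, fun a => ?_⟩
  rw [hF']
  simp only [enc_pair, pr_eq_pairW, enc_nat]
  rfl

theorem pt_or {i j : γ → ℕ} (hi : PT A i) (hj : PT A j) : PT A (fun a => BGate.or (i a) (j a)) := by
  obtain ⟨F, hF, hF'⟩ := (PT.const (A := A) (α := γ) 1).pair (hi.pair hj)
  refine ⟨F, hF, fun a => ?_⟩
  rw [hF']
  simp only [enc_pair, pr_eq_pairW, enc_nat]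
  rfl

theorem pt_not {i : γ → ℕ} (hi : PT A i) : PT A (fun a => BGate.not (i a)) := by
  obtain ⟨F, hF, hF'⟩ := (PT.const (A := A) (α := γ) 2).pair (hi.pair (PT.const (A := A) (α := γ) 0))
  refine ⟨F, hF, fun a => ?_⟩
  rw [hF']
  simp only [enc_pair, pr_eq_pairW, enc_nat]
  rfl

theorem pt_mg {n M : γ → ℕ} {g : γ → MG} (hn : PT A n) (hM : PT A M) (hg : PT A g) :
    PT A (fun a => mg (n a) (M a) (g a)) := by
  have ho : PT A (fun a => 4 * ((g a).1 - (2 + M a))) :=
    (PT.const 4).mul (hg.fst.sub ((PT.const 2).add hM))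
  have hc : PT A (fun a => wire (n a) (M a) (g a).2.1) := pt_wire hn hM hg.snd.fst
  have ha : PT A (fun a => wire (n a) (M a) (g a).2.2.1) := pt_wire hn hM hg.snd.snd.fst
  have hb : PT A (fun a => wire (n a) (M a) (g a).2.2.2) := pt_wire hn hM hg.snd.snd.snd
  exact PT.cons (pt_and hc ha) (PT.cons (pt_not hc) (PT.cons
    (pt_and ((hn.add (PT.const 4)).add ho) hb) (PT.cons
    (pt_or ((hn.add (PT.const 3)).add ho) ((hn.add (PT.const 5)).add ho)) PT.nil)))

theorem pt_circ (p : Prog) (m : ℕ) {L T n l : γ → ℕ} (hL : PT A L) (hLb : PBd L) (hT : PT A T)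
    (hTb : PBd T) (hn : PT A n) (hl : PT A l) (hlb : PBd l) :
    PT A (fun a => circP p m (L a) (T a) (n a) (l a)) := by
  have hM : PT A (fun a => m * L a) := (PT.const m).mul hL
  refine PT_mkCirc ?_ ?_
  · refine PT.cons (pt_not (PT.const 0)) (PT.cons (pt_and (PT.const 0) hn)
      (PT.cons (pt_or (PT.const 0) hn) ?_))
    exact PT.flatMap (f := fun a g => mg (n a) (m * L a) g)
      (Vale.Agent.Lib.PCP.CL.pt_gen m p hL hLb hT hTb (PT.const 2) ((PT.const 2).add hM))
      (pt_mg (hn.comp PT.fst') (hM.comp PT.fst') PT.snd')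
  · exact PT.map (f := fun a k => wire (n a) (m * L a)
        (2 + m * L a + cost m (L a) (T a) p + (2 * k + 1))) (PT.range hl hlb)
      (pt_wire (hn.comp PT.fst') (hM.comp PT.fst')
        (((((PT.const 2).add hM).add (Vale.Agent.Lib.PCP.CL.pt_cost m p hL hT)).comp
          PT.fst').add (((PT.const 2).mul PT.snd').add (PT.const 1))))

end PT

/-! ### The theorem -/

theorem cost_le (m : ℕ) (p : Prog) : PB (fun k => cost m k k p) := by
  induction p with
  | skip => exact PB.const 0
  | push i b => exact PB.const 0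
  | pop i => exact PB.const 0
  | query i j => exact PB.const 0
  | seq p q ihp ihq =>
    exact (ihp.add ((PB.const m).mul PB.id)).add ihq
  | ite i p q r ihp ihq ihr =>
    exact ((ihp.add ihq).add ihr).add ((PB.const 4).mul ((PB.const m).mul PB.id))
  | loop i p ihp =>
    exact PB.id.mul (ihp.add ((PB.const 2).mul ((PB.const m).mul PB.id)))

theorem cost_mono (m : ℕ) (p : Prog) {L L' T T' : ℕ} (hL : L ≤ L') (hT : T ≤ T') :
    cost m L T p ≤ cost m L' T' p := by
  have hM : m * L ≤ m * L' := Nat.mul_le_mul_left _ hL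
  induction p with
  | skip => exact le_rfl
  | push i b => exact le_rfl
  | pop i => exact le_rfl
  | query i j => exact le_rfl
  | seq p q ihp ihq => simp only [cost]; omega
  | ite i p q r ihp ihq ihr => simp only [cost]; omega
  | loop i p ihp =>
    simp only [cost]
    exact Nat.mul_le_mul hT (by omega)

/-- `C n l` is a family of Boolean circuits with `n ≥ 1` inputs and `l` outputs computing the
first `l` bits of `f` (padded by `false`), in polynomial time. -/
structure IsCircFam (f : Word → Word) (C : ℕ → ℕ → BoolCircuit) : Prop where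
  outs : ∀ n l, 1 ≤ n → (C n l).outs.length = l
  outs_lt : ∀ n l, 1 ≤ n → ∀ i ∈ (C n l).outs, i < n + (C n l).gates.length
  below : ∀ n l, 1 ≤ n → ∀ k, ∀ h : k < (C n l).gates.length, (C n l).gates[k].Below (n + k)
  eval : ∀ n l, 1 ≤ n → ∀ x : List Bool, x.length = n →
    (C n l).eval x = (List.range l).map fun k => (f x).getD k false
  size : ∃ c : ℕ, ∀ n l, (C n l).gates.length ≤ (n + l + 2) ^ c
  pt : ∀ {A : Set Word} {γ : Type} [Enc γ] {n l : γ → ℕ}, PT A n → PBd n → PT A l → PBd l →
    PT A (fun a => C (n a) (l a))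

/-- **Uniform circuits from polynomial time functions.** -/
theorem exists_circ {f : Word → Word} (hf : FP ∅ f) : ∃ C, IsCircFam f C := by
  obtain ⟨p, T₀, hp⟩ := hf.exists_prog
  set m := max p.bound 1 with hm
  let T : ℕ → ℕ := fun n => T₀.eval n
  let L : ℕ → ℕ → ℕ := fun n l => 2 * (n + T n) + 2 * l + 2
  have hb : p.bound ≤ m := le_max_left _ _
  have hm0 : 0 < m := by omega
  refine ⟨fun n l => circP p m (L n l) (T n) n l, ?_, ?_, ?_, ?_, ?_, ?_⟩
  · intro n l hn
    exact (circ_ok hb hm0 hn (by simp only [L]; omega) (by simp only [L]; omega)).1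
  · intro n l hn
    exact (circ_ok hb hm0 hn (by simp only [L]; omega) (by simp only [L]; omega)).2.1
  · intro n l hn
    exact (circ_ok hb hm0 hn (by simp only [L]; omega) (by simp only [L]; omega)).2.2
  · intro n l hn x hx
    refine circ_eval hb hm0 hn (by simp only [L]; omega) (by simp only [L]; omega)
      (fun z hz => ?_) hx
    obtain ⟨t, s, h1, h2, h3⟩ := hp z
    exact ⟨t, s, h1, by rw [hz] at h2; exact h2, h3⟩
  · -- size
    obtain ⟨S, hS, hSm, hTS⟩ := (PB.of_polynomial T₀).exists_mono
    obtain ⟨c, hc⟩ := ((PB.const 3).add ((PB.const 4).mul (((cost_le m p).add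
      ((PB.const m).mul PB.id)).comp ((((PB.const 2).mul (PB.id.add hS)).add
        ((PB.const 2).mul PB.id)).add (PB.const 2)))))
    refine ⟨c, fun n l => le_trans ?_ (hc (n + l))⟩
    show (gatesOf n (m * L n l) (gen m (L n l) (T n) p 2 (2 + m * L n l))).length ≤ _
    rw [length_gatesOf, length_gen]
    have h1 : T n ≤ S (n + l) := (hTS n).trans (hSm (Nat.le_add_right n l))
    have h2 : L n l ≤ 2 * (n + l + S (n + l)) + 2 * (n + l) + 2 := by
      simp only [L]; omega
    have h3 : T n ≤ 2 * (n + l + S (n + l)) + 2 * (n + l) + 2 := by omega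
    have h4 := cost_mono m p h2 h3
    have h5 : m * L n l ≤ m * (2 * (n + l + S (n + l)) + 2 * (n + l) + 2) :=
      Nat.mul_le_mul_left _ h2
    show _ ≤ 3 + 4 * (cost m (2 * (n + l + S (n + l)) + 2 * (n + l) + 2)
      (2 * (n + l + S (n + l)) + 2 * (n + l) + 2) p +
        m * (2 * (n + l + S (n + l)) + 2 * (n + l) + 2))
    omega
  · intro A γ _ n l hn hnb hl hlb
    have hT : PT A (fun a => T (n a)) := Vale.Agent.Lib.PCP.CL.pt_poly T₀ hn
    have hTb : PBd (fun a => T (n a)) := Vale.Agent.Lib.PCP.CL.pbd_poly T₀ hnb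
    refine pt_circ p m ?_ ?_ hT hTb hn hl hlb
    · exact (((PT.const 2).mul (hn.add hT)).add ((PT.const 2).mul hl)).add (PT.const 2)
    · exact (((PBd.const 2).mul (hnb.add hTb)).add ((PBd.const 2).mul hlb)).add (PBd.const 2)

end Vale.Agent.P330.H838
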