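import Vale.Agent.P330.FM.SoundF

/-!
# The numbers of the family of modules of a family of functional systems

`FNums` are the numbers of a family of instances of a functional system whose blocks are the words
of length `m a`; `numsF` are those of the family `fdatF` of modules.
-/

namespace Vale.Agent.P330.H838

open PCP.AR
open Vale.Agent.Lib.PolyTime
open S (Sem IsB)
open H475 (FData Wd wd toWd)
open FM

variable {S : FSpec} {k : ℕ} {ι : Type} {m : ι → ℕ}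

/-- Numbers of a family of instances, polynomial time algorithms. -/
structure FNums [Enc ι] (I : ι → FInst S) (eB : ∀ a, Wd (m a) ≃ (I a).Bl) where
  fCB : Fintype S.CB
  nP : ι → ℕ
  nZ : ι → ℕ
  nP_pt : PT ∅ nP
  nZ_pt : PT ∅ nZ
  size : ∃ c : ℕ, ∀ a, nP a * nZ a ≤ (m a + 2) ^ c
  eP : ∀ a, (I a).P ≃ Fin (nP a)
  eZ : ∀ a, (I a).Z ≃ Fin (nZ a)
  encN : S.L → ι × Word × ℕ → Bool
  encN_pt : ∀ l, PT ∅ (encN l)
  encN_eq : ∀ l a (s : Wd (m a)) p, encN l (a, wd s, (eP a p : ℕ)) = (I a).enc (eB a s) l p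
  sPN : Fin 4 → ι × ℕ → ℕ
  sPN_pt : ∀ j, PT ∅ (sPN j)
  sPN_eq : ∀ j a p, sPN j (a, (eP a p : ℕ)) = eP a ((I a).sP j p)
  sZN : Fin 4 → ι × ℕ → ℕ
  sZN_pt : ∀ j, PT ∅ (sZN j)
  sZN_eq : ∀ j a z, sZN j (a, (eZ a z : ℕ)) = eZ a ((I a).sZ j z)
  /-- the maps of the sites, on pairs of numbers -/
  rdN : S.Rd → ι × ℕ × ℕ → ℕ × ℕ
  rdN_pt : ∀ R, PT ∅ (rdN R)
  rdN_eq : ∀ R a p z, rdN R (a, (eP a p : ℕ), (eZ a z : ℕ)) =
    ((eP a ((I a).rd R (p, z)).1 : ℕ), (eZ a ((I a).rd R (p, z)).2 : ℕ))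
  /-- the public bits; the word is not used -/
  cbN : S.CB → ι × Word × ℕ × ℕ → Bool
  cbN_pt : ∀ κ, PT ∅ (cbN κ)
  cbN_eq : ∀ κ a (w : Word) p z, cbN κ (a, w, (eP a p : ℕ), (eZ a z : ℕ)) = (I a).cb κ (p, z)

/-- The selectors as words. -/
def selN (n : ℕ) (σ : Sel) : Word :=
  (σ.bits 0 :: σ.bits 1 :: σ.bits 2 :: List.replicate n false).take n

theorem bits_add (σ : Sel) (i : ℕ) : σ.bits (i + 3) = false := by
  cases σ <;> rfl

theorem selN_eq (n : ℕ) (σ : Sel) : selN n σ = wd (selW n σ) := by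
  unfold selN wd selW
  apply List.ext_getElem
  · simp
    omega
  · intro i h1 h2
    rw [List.getElem_take, List.getElem_ofFn]
    rcases i with _ | _ | _ | i
    · rfl
    · rfl
    · rfl
    · rw [bits_add]
      simp

theorem PT_selN {α : Type} [Enc α] {A : Set Word} {n : α → ℕ} (hn : PT A n) (hb : PBd n)
    (σ : Sel) : PT A (fun a => selN (n a) σ) :=
  PT.take (PT.cons (PT.const _) (PT.cons (PT.const _) (PT.cons (PT.const _)
    (PT.replicate hn hb (PT.const false))))) hn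

/-- The constant words. -/
def cnN (n : ℕ) (z : Bool) (p : Word) : CN → Word
  | .sid => selN n .id
  | .shold => selN n .hold
  | .sstep => selN n (.step z)
  | .schk => selN n .chk
  | .pub => p

theorem PT_cnN {α : Type} [Enc α] {A : Set Word} {n : α → ℕ} {p : α → Word} (hn : PT A n)
    (hb : PBd n) (hp : PT A p) (z : Bool) (c : CN) : PT A (fun a => cnN (n a) z (p a) c) := by
  cases c with
  | sid => exact PT_selN hn hb _
  | shold => exact PT_selN hn hb _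
  | sstep => exact PT_selN hn hb _
  | schk => exact PT_selN hn hb _
  | pub => exact hp

theorem cnN_eq {n : ℕ} (z : Bool) (p : Wd n) (c : CN) :
    cnN n z (wd p) c = wd (FM.blkW (Equiv.refl _) z p c) := by
  cases c with
  | pub => rfl
  | _ => exact selN_eq n _

theorem blkW_eq {B : Type} {n : ℕ} (e : Wd n ≃ B) (z : Bool) (p : Wd n) (c : CN) :
    FM.blkW e z p c = e (FM.blkW (Equiv.refl _) z p c) := by
  cases c <;> rfl

namespace FNums

variable [Enc ι] {I : ι → FInst S} {eB : ∀ a, Wd (m a) ≃ (I a).Bl} (U : FNums I eB)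

/-- The bits of the constant blocks. -/
def cstN (z : Bool) (a : CN × S.L) (x : ι × Word × ℕ × ℕ) : Bool :=
  U.encN a.2 (x.1, cnN (m x.1) z x.2.1 a.1, x.2.2.1)

theorem cstN_eq (z : Bool) (a : CN × S.L) (i : ι) (s : Wd (m i)) (p : (I i).P) (w : ℕ) :
    U.cstN z a (i, wd s, (U.eP i p : ℕ), w) = (I i).enc (FM.blkW (eB i) z s a.1) a.2 p := by
  unfold cstN
  rw [show cnN (m (i, wd s, ((U.eP i p : ℕ), w)).1) z (i, wd s, ((U.eP i p : ℕ), w)).2.1 a.1 =
    wd (FM.blkW (Equiv.refl _) z s a.1) from cnN_eq z s a.1, blkW_eq (eB i)]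
  exact U.encN_eq a.2 i _ p

theorem PT_cstN (hm : PT ∅ m) (hb : PBd m) (z : Bool) (a : CN × S.L) : PT ∅ (U.cstN z a) :=
  (U.encN_pt a.2).comp (PT.fst'.pair ((PT_cnN (hm.comp PT.fst') (hb.comp (PT.fst' (A := ∅)))
    PT.snd'.fst z a.1).pair PT.snd'.snd.fst))

/-- The hard-wired bits of a module. -/
def cbmN (z : Bool) : CBM S → ι × Word × ℕ × ℕ → Bool := Sum.elim U.cbN (U.cstN z)

theorem cbmN_eq (z : Bool) (κ : CBM S) (i : ι) (s : Wd (m i)) (p : (I i).P) (w : (I i).Z) :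
    U.cbmN z κ (i, wd s, (U.eP i p : ℕ), (U.eZ i w : ℕ)) =
      ((I i).semM (FM.blkW (eB i) z s)).cb κ (p, w) := by
  rcases κ with κ | a
  · exact U.cbN_eq κ i (wd s) p w
  · exact U.cstN_eq z a i s p _

theorem PT_cbmN (hm : PT ∅ m) (hb : PBd m) (z : Bool) (κ : CBM S) : PT ∅ (U.cbmN z κ) := by
  rcases κ with κ | a
  · exact U.cbN_pt κ
  · exact U.PT_cstN hm hb z a

end FNums

/-- **The numbers of the family of modules.** -/
noncomputable def numsF [Enc ι] {I : ι → FInst S} {eB : ∀ a, Wd (m a) ≃ (I a).Bl}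
    (eK : S.K ≃ Fin (k + 2)) (q : CConst) (τv : ℚ) (own : Fin k) (U : FNums I eB) (hm : PT ∅ m)
    (hb : PBd m) : (fdatF S eK q τv own I eB).Nums where
  fH := by
    haveI := U.fCB
    exact (inferInstance : Fintype (CBM S))
  fS := by
    haveI := U.fCB
    exact (inferInstance : Fintype (CBM S))
  fC := by
    haveI := U.fCB
    exact (inferInstance : Fintype (CBM S))
  nP := U.nP
  nZ := U.nZ
  nP_pt := U.nP_pt
  nZ_pt := U.nZ_pt
  size := U.size
  eP := U.eP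
  eZ := U.eZ
  encN := U.encN
  encN_pt := U.encN_pt
  encN_eq := U.encN_eq
  sPN := U.sPN
  sPN_pt := U.sPN_pt
  sPN_eq := U.sPN_eq
  sZN := U.sZN
  sZN_pt := U.sZN_pt
  sZN_eq := U.sZN_eq
  rdHN := U.rdN
  rdHN_pt := U.rdN_pt
  rdHN_eq := U.rdN_eq
  rdSN := U.rdN
  rdSN_pt := U.rdN_pt
  rdSN_eq := U.rdN_eq
  rdCN := U.rdN
  rdCN_pt := U.rdN_pt
  rdCN_eq := U.rdN_eq
  cbHN := U.cbmN false
  cbHN_pt := U.PT_cbmN hm hb false
  cbHN_eq := U.cbmN_eq false
  cbSN := U.cbmN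
  cbSN_pt := U.PT_cbmN hm hb
  cbSN_eq := U.cbmN_eq
  cbCN := U.cbmN false
  cbCN_pt := U.PT_cbmN hm hb false
  cbCN_eq := U.cbmN_eq false

end Vale.Agent.P330.H838
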