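import Vale.Agent.P330.H838.ND
import Vale.Agent.P330.S.GB

/-!
# From a homogeneous network to a generalized circuit (format `ND`)

* `nprog`: the program of a definition `ND`;
* `tpl`: the template of a site (a list of `K` entries), `root ρ` the position of the register;
* `circ`: the generalized circuit with `N * K` nodes and `N * K` gates;
* `circ_obeys`: an assignment satisfying all but the fraction `δ` of the gates obeys the network,
  except for `δ * K * N` sites.
-/

namespace Vale.Agent.P330.H838

open Finset PCP.AR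
open S (BitDef IsB isB_iff clq clq_mem clq_eq)

section gen

/-- Inputs of the program of a definition. -/
inductive NInp (Reg Rd CB : Type)
  | rd (r : Rd) (ρ : Reg)
  | cb (κ : CB)
  | self (ρ : Reg)

variable {Reg Rd CB : Type}

/-- The terms of a resolvent average. -/
def ndTerms (lam : ℚ) (ρ ρ' : Reg) (l : List Rd) : List (ℚ × NInp Reg Rd CB) :=
  (clq lam, .self ρ') :: l.map fun R => ((1 - clq lam) / l.length, .rd R ρ)

theorem ndTerms_mem (lam : ℚ) (ρ ρ' : Reg) (l : List Rd) :
    ∀ p ∈ (ndTerms lam ρ ρ' l : List (ℚ × NInp Reg Rd CB)), 0 ≤ p.1 ∧ p.1 ≤ 1 := by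
  have h := clq_mem lam
  intro p hp
  simp only [ndTerms, List.mem_cons, List.mem_map] at hp
  rcases hp with rfl | ⟨R, hR, rfl⟩
  · exact h
  · have hl : 0 < l.length := List.length_pos_of_mem hR
    have hl' : (1 : ℚ) ≤ l.length := by exact_mod_cast hl
    refine ⟨div_nonneg (by linarith [h.2]) (by linarith), ?_⟩
    rw [div_le_one (by linarith)]
    linarith [h.1]

/-- The name of an input. -/
def ninpOf : (Rd × Reg) ⊕ CB → NInp Reg Rd CB
  | .inl p => .rd p.1 p.2
  | .inr κ => .cb κ

open Classical in
/-- The program of a definition. -/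
noncomputable def nprog (ρ : Reg) : ND Reg Rd CB → Prog (NInp Reg Rd CB)
  | .bit B => letI := B.fι; (kg B.f).map fun i => ninpOf (B.inp i)
  | .thr α ρ' => (thrP (clq α) (clq_mem α)).map fun _ => .self ρ'
  | .ra lam l ρ' => aff (ndTerms lam ρ ρ' l) (ndTerms_mem lam ρ ρ' l)

theorem nprog_spec {Ω : Type} (E : NSem Rd CB Ω) {ε : ℝ} (hε : ε < 1 / 2) (ρ : Reg)
    (D : ND Reg Rd CB) (hD : D.Ok)
    (x : Reg → Ω → ℝ) (ω : Ω) (y : NInp Reg Rd CB ⊕ ℕ → ℝ)
    (h0 : ∀ u, 0 ≤ y u ∧ y u ≤ 1)
    (hrd : ∀ r ρ', y (Sum.inl (.rd r ρ')) = x ρ' (E.rd r ω))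
    (hself : ∀ ρ', y (Sum.inl (.self ρ')) = x ρ' ω)
    (hcb : ∀ κ, P330.Rd ε (y (Sum.inl (.cb κ))) (E.cb κ ω))
    (hres : x ρ ω = (nprog ρ D).res y)
    (h : (nprog ρ D).Sat ε y) : D.Rel E ε x ρ ω := by
  classical
  cases D with
  | bit B =>
    let _ := B.fι
    simp only [nprog] at h hres
    simp only [ND.Rel]
    intro b hb
    rw [isB_iff, hres, Prog.res_map]
    refine kg_spec hε B.f _ (Prog.sat_map h) b ?_
    intro b' hb'
    refine hb b' fun i => ?_
    have h1 := hb' i
    simp only [Sum.map_inl] at h1
    cases hi : B.inp i with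
    | inl p =>
      rw [hi] at h1
      simp only [ninpOf, hrd] at h1
      simp only [Sum.elim_inl]
      intro c hc
      exact h1 c (isB_iff.1 hc)
    | inr κ =>
      rw [hi] at h1
      simp only [ninpOf] at h1
      simp only [Sum.elim_inr]
      exact h1 _ (hcb κ)
  | thr α ρ' =>
    simp only [nprog] at h hres
    simp only [ND.Ok] at hD
    simp only [ND.Rel]
    have h1 := thrP_spec (clq α) (clq_mem α) _ (Prog.sat_map h)
    rw [Sum.map_inl] at h1
    simp only [clq_eq hD, hself] at h1
    rw [isB_iff, isB_iff, hres, Prog.res_map]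
    simp only [clq_eq hD] at h1 ⊢
    exact h1
  | ra lam l ρ' =>
    simp only [nprog] at h hres
    simp only [ND.Rel]
    simp only [ND.Ok] at hD
    have hl : clq lam = lam := clq_eq hD
    have hl0 : (0 : ℝ) ≤ lam := by exact_mod_cast hD.1
    have hl1 : (lam : ℝ) ≤ 1 := by exact_mod_cast hD.2
    have hsum : ((ndTerms lam ρ ρ' l : List (ℚ × NInp Reg Rd CB)).map
        fun p => (p.1 : ℝ) * y (Sum.inl p.2)).sum
        = (1 - lam) * E.avg l (x ρ) ω + lam * x ρ' ω := by
      simp only [ndTerms, hl, List.map_cons, List.map_map, List.sum_cons, hself, NSem.avg]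
      have e1 : (List.map ((fun p : ℚ × NInp Reg Rd CB => (p.1 : ℝ) * y (Sum.inl p.2)) ∘
          fun R => ((1 - lam) / (l.length : ℚ), NInp.rd R ρ)) l).sum =
          ((1 - (lam : ℝ)) / l.length) * (l.map fun R => x ρ (E.rd R ω)).sum := by
        rw [← List.sum_map_mul_left]
        congr 1
        refine List.map_congr_left fun R _ => ?_
        simp only [Function.comp_apply, hrd]
        push_cast
        ring
      rw [e1]
      ring
    have havg : 0 ≤ E.avg l (x ρ) ω ∧ E.avg l (x ρ) ω ≤ 1 := by
      have hb : ∀ R, 0 ≤ x ρ (E.rd R ω) ∧ x ρ (E.rd R ω) ≤ 1 := fun R => by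
        rw [← hrd]; exact h0 _
      have key : ∀ l : List Rd, 0 ≤ (l.map fun R => x ρ (E.rd R ω)).sum ∧
          (l.map fun R => x ρ (E.rd R ω)).sum ≤ l.length := by
        intro l
        induction l with
        | nil => simp
        | cons R l ih =>
          simp only [List.map_cons, List.sum_cons, List.length_cons]
          push_cast
          have := hb R
          constructor <;> linarith [ih.1, ih.2]
      have hk := key l
      unfold NSem.avg
      have hn : (0 : ℝ) ≤ l.length := Nat.cast_nonneg _
      exact ⟨div_nonneg hk.1 hn, div_le_one_of_le₀ hk.2 hn⟩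
    have hx1 : 0 ≤ x ρ' ω ∧ x ρ' ω ≤ 1 := by rw [← hself]; exact h0 _
    have h5 := aff_spec (ε := ε) (ndTerms lam ρ ρ' l) (ndTerms_mem lam ρ ρ' l) y
      (fun p _ => (h0 _).1) (by
        rw [hsum]
        nlinarith [havg.2, hx1.2]) h
    rw [hsum, ← hres] at h5
    refine h5.trans (le_of_eq ?_)
    have h6 : ((ndTerms lam ρ ρ' l : List (ℚ × NInp Reg Rd CB)).length : ℝ) = l.length + 1 := by
      simp [ndTerms]
    rw [h6]
    ring

/-! ### The template of a site -/

/-- Entries of the template of a site. -/
inductive Tp (Reg Rd CB : Type)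
  | bit (κ : CB)
  | op (o : Op ((Rd × Reg) ⊕ ℕ))

variable [Fintype Reg] [Fintype CB]

/-- The list of the registers. -/
noncomputable def regs (Reg : Type) [Fintype Reg] : List Reg := (Finset.univ : Finset Reg).toList

section tpl

variable (defs : Reg → ND Reg Rd CB)

/-- Number of operations of the program of a register. -/
noncomputable def sz (ρ : Reg) : ℕ := (nprog ρ (defs ρ)).ops.length

omit [Fintype Reg] [Fintype CB] in
theorem sz_pos (ρ : Reg) : 0 < sz defs ρ := (nprog ρ (defs ρ)).pos

open Classical in
/-- The offset of the block of a register. -/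
noncomputable def offL : List Reg → ℕ → Reg → ℕ
  | [], n, _ => n
  | ρ' :: l, n, ρ => if ρ' = ρ then n else offL l (n + sz defs ρ') ρ

/-- The offset of the block of a register. -/
noncomputable def offR (ρ : Reg) : ℕ :=
  offL defs (regs Reg) (Fintype.card CB) ρ

/-- The position of a register in the template of a site. -/
noncomputable def root (ρ : Reg) : ℕ := offR defs ρ + sz defs ρ - 1

open Classical in
/-- The position of a hard-wired bit. -/
noncomputable def cbIdx (κ : CB) : ℕ := (regs CB).idxOf κ

/-- Translation of the nodes of the program of a register with the offset `n`. -/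
noncomputable def trN (n : ℕ) : NInp Reg Rd CB ⊕ ℕ → (Rd × Reg) ⊕ ℕ
  | .inl (.rd r ρ) => .inl (r, ρ)
  | .inl (.cb κ) => .inr (cbIdx κ)
  | .inl (.self ρ) => .inr (root defs ρ)
  | .inr j => .inr (n + j)

/-- The blocks of the registers. -/
noncomputable def blocks : List Reg → ℕ → List (Tp Reg Rd CB)
  | [], _ => []
  | ρ :: l, n => (nprog ρ (defs ρ)).ops.map (fun o => .op (o.map (trN defs n))) ++
      blocks l (n + sz defs ρ)

/-- The template of a site. -/
noncomputable def tpl : List (Tp Reg Rd CB) :=
  (regs CB).map .bit ++ blocks defs (regs Reg) (Fintype.card CB)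

/-- Number of nodes per site. -/
noncomputable def KK : ℕ := (tpl defs).length

theorem blocks_spec (l : List Reg) (n : ℕ) (ρ : Reg) (hρ : ρ ∈ l) :
    n ≤ offL defs l n ρ ∧
    offL defs l n ρ + sz defs ρ ≤ n + (blocks defs l n).length ∧
    ∀ (k : ℕ) (o : Op (NInp Reg Rd CB ⊕ ℕ)), (nprog ρ (defs ρ)).ops[k]? = some o →
      (blocks defs l n)[offL defs l n ρ - n + k]? =
        some (.op (o.map (trN defs (offL defs l n ρ)))) := by
  classical
  induction l generalizing n with
  | nil => simp at hρ
  | cons ρ' l ih =>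
    by_cases h : ρ' = ρ
    · subst h
      simp only [offL, if_true, blocks, List.length_append, List.length_map]
      refine ⟨le_rfl, by simp only [sz]; omega, fun k o hk => ?_⟩
      rw [Nat.sub_self, Nat.zero_add]
      have hlt : k < (nprog ρ' (defs ρ')).ops.length := (List.getElem?_eq_some_iff.1 hk).1
      rw [List.getElem?_append_left (by simpa using hlt), List.getElem?_map, hk]
      rfl
    · have hρl : ρ ∈ l := by
        rcases List.mem_cons.1 hρ with h' | h'
        · exact absurd h'.symm h
        · exact h'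
      simp only [offL, h, if_false, blocks, List.length_append, List.length_map]
      obtain ⟨h1, h2, h3⟩ := ih (n + sz defs ρ') hρl
      refine ⟨by omega, by simp only [sz] at h2 ⊢; omega, fun k o hk => ?_⟩
      have h4 := h3 k o hk
      rw [List.getElem?_append_right (by
        simp only [List.length_map]
        simp only [sz] at h1 ⊢; omega)]
      simp only [List.length_map]
      rw [← h4]
      congr 1
      simp only [sz] at h1 ⊢
      omega

theorem tpl_reg (ρ : Reg) (k : ℕ) (o : Op (NInp Reg Rd CB ⊕ ℕ))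
    (hk : (nprog ρ (defs ρ)).ops[k]? = some o) :
    (tpl defs)[offR defs ρ + k]? =
      some (.op (o.map (trN defs (offR defs ρ)))) := by
  obtain ⟨h1, _, h3⟩ := blocks_spec defs (regs Reg) (Fintype.card CB) ρ (by simp [regs])
  have h4 := h3 k o hk
  unfold tpl
  have hc : ((regs CB).map (Tp.bit : CB → Tp Reg Rd CB)).length = Fintype.card CB := by
    simp [regs]
  rw [List.getElem?_append_right (by rw [hc]; unfold offR; omega), hc]
  unfold offR
  rw [← h4]
  congr 1
  omega

theorem root_lt (ρ : Reg) : root defs ρ < KK defs := by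
  obtain ⟨h1, h2, _⟩ := blocks_spec defs (regs Reg) (Fintype.card CB) ρ (by simp [regs])
  have hs := sz_pos defs ρ
  have hc : ((regs CB).map (Tp.bit : CB → Tp Reg Rd CB)).length = Fintype.card CB := by
    simp [regs]
  unfold root KK tpl
  rw [List.length_append, hc]
  unfold offR
  omega

omit [Fintype Reg] in
theorem cbIdx_lt (κ : CB) : cbIdx κ < Fintype.card CB := by
  classical
  have : (regs CB).length = Fintype.card CB := by simp [regs]
  rw [← this]
  unfold cbIdx
  exact List.idxOf_lt_length_of_mem (by simp [regs])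

theorem tpl_bit (κ : CB) : (tpl defs)[cbIdx κ]? = some (.bit κ) := by
  classical
  unfold tpl
  have hc : ((regs CB).map (Tp.bit : CB → Tp Reg Rd CB)).length = Fintype.card CB := by
    simp [regs]
  rw [List.getElem?_append_left (by rw [hc]; exact cbIdx_lt κ), List.getElem?_map]
  have : (regs CB)[cbIdx κ]? = some κ := by
    unfold cbIdx
    exact List.getElem?_idxOf (by simp [regs])
  rw [this]
  rfl

theorem cbIdx_lt' (κ : CB) : cbIdx κ < KK defs :=
  (List.getElem?_eq_some_iff.1 (tpl_bit defs κ)).1

/-- All entries of the template read local nodes with numbers `< KK` and have good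
parameters. -/
theorem tpl_op {j : ℕ} {o : Op ((Rd × Reg) ⊕ ℕ)}
    (h : (tpl defs)[j]? = some (.op o)) :
    (∀ i, Sum.inr i ∈ o.ins → i < KK defs) ∧ ∀ α ∈ o.params, 0 ≤ α ∧ α ≤ 1 := by
  classical
  have key : ∀ (l : List Reg) (n : ℕ), n + (blocks defs l n).length ≤ KK defs →
      Tp.op o ∈ blocks defs l n →
      (∀ i, Sum.inr i ∈ o.ins → i < KK defs) ∧ ∀ α ∈ o.params, 0 ≤ α ∧ α ≤ 1 := by
    intro l
    induction l with
    | nil => intro n _ h; simp [blocks] at h
    | cons ρ l ih =>
      intro n hn h
      simp only [blocks, List.mem_append, List.mem_map] at h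
      simp only [blocks, List.length_append, List.length_map] at hn
      rcases h with ⟨o', ho', ho⟩ | h
      · have ho2 : o'.map (trN defs n) = o := by injection ho
        subst ho2
        refine ⟨fun i hi => ?_, fun α hα => ?_⟩
        · rw [Op.ins_map] at hi
          obtain ⟨w, hw, hwi⟩ := List.mem_map.1 hi
          obtain ⟨k, hk⟩ := List.getElem?_of_mem ho'
          have hlt : k < (nprog ρ (defs ρ)).ops.length := (List.getElem?_eq_some_iff.1 hk).1
          rcases w with (⟨r, ρ'⟩ | κ | ρ') | j'
          · simp [trN] at hwi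
          · simp only [trN, Sum.inr.injEq] at hwi
            rw [← hwi]; exact cbIdx_lt' defs κ
          · simp only [trN, Sum.inr.injEq] at hwi
            rw [← hwi]; exact root_lt defs ρ'
          · simp only [trN, Sum.inr.injEq] at hwi
            have := (nprog ρ (defs ρ)).below k o' hk j' hw
            omega
        · rw [Op.params_map] at hα
          exact (nprog ρ (defs ρ)).params_mem o' ho' α hα
      · exact ih (n + sz defs ρ) (by simp only [sz] at hn ⊢; omega) h
  have hmem := List.mem_of_getElem? h
  unfold tpl at hmem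
  rcases List.mem_append.1 hmem with h1 | h1
  · simp at h1
  · refine key (regs Reg) (Fintype.card CB) ?_ h1
    unfold KK tpl
    simp [regs]

end tpl

/-! ### The circuit -/

section circ

variable (defs : Reg → ND Reg Rd CB) (N : ℕ) (rd : Rd → ℕ → ℕ) (cb : CB → ℕ → Bool)

/-- The number of a node. -/
noncomputable def addr (w : ℕ) : (Rd × Reg) ⊕ ℕ → ℕ
  | .inl (r, ρ) => rd r w * KK defs + root defs ρ
  | .inr j => w * KK defs + j

/-- The gate with the number `j` of the site `w`. -/
noncomputable def siteGate (w j : ℕ) : Tp Reg Rd CB → Gate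
  | .bit κ => .const (if cb κ w then 1 else 0) (w * KK defs + j)
  | .op o => o.toGate (addr defs rd w) (w * KK defs + j)

theorem out_siteGate (w j : ℕ) (t : Tp Reg Rd CB) :
    (siteGate defs rd cb w j t).out = w * KK defs + j := by
  cases t with
  | bit κ => rfl
  | op o => exact Op.out_toGate _ _ _

/-- The gates of a site. -/
noncomputable def siteGates (w : ℕ) : List Gate :=
  (tpl defs).mapIdx fun j t => siteGate defs rd cb w j t

/-- The list of all gates. -/
noncomputable def gatesL : List Gate := (List.range N).flatMap (siteGates defs rd cb)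

theorem map_out_siteGates (w : ℕ) : (siteGates defs rd cb w).map Gate.out =
    (List.range (KK defs)).map fun j => w * KK defs + j := by
  apply List.ext_getElem?
  intro j
  unfold siteGates
  rw [List.getElem?_map, List.getElem?_mapIdx, List.getElem?_map]
  by_cases h : j < KK defs
  · have h' : j < (tpl defs).length := h
    rw [List.getElem?_eq_getElem h', List.getElem?_range h]
    simp [out_siteGate]
  · have h' : (tpl defs).length ≤ j := not_lt.1 h
    rw [List.getElem?_eq_none h', List.getElem?_eq_none (by simpa using h)]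
    rfl

theorem map_out_gatesL : (gatesL defs N rd cb).map Gate.out = List.range (N * KK defs) := by
  unfold gatesL
  rw [List.map_flatMap]
  simp only [map_out_siteGates]
  exact S.flatMap_range _ _

theorem length_gatesL : (gatesL defs N rd cb).length = N * KK defs := by
  have := congrArg List.length (map_out_gatesL defs N rd cb)
  simpa using this

theorem mem_siteGates {w : ℕ} {g : Gate} (h : g ∈ siteGates defs rd cb w) :
    ∃ (j : ℕ) (t : Tp Reg Rd CB), (tpl defs)[j]? = some t ∧
      g = siteGate defs rd cb w j t := by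
  obtain ⟨j, hj⟩ := List.getElem?_of_mem h
  unfold siteGates at hj
  rw [List.getElem?_mapIdx] at hj
  obtain ⟨t, ht, rfl⟩ := Option.map_eq_some_iff.1 hj
  exact ⟨j, t, ht, rfl⟩

theorem siteGate_mem {w j : ℕ} {t : Tp Reg Rd CB} (h : (tpl defs)[j]? = some t) :
    siteGate defs rd cb w j t ∈ siteGates defs rd cb w := by
  apply List.mem_of_getElem? (i := j)
  unfold siteGates
  rw [List.getElem?_mapIdx, h]
  rfl

/-- **The circuit** of a network on `N` sites. -/
noncomputable def circ [Nonempty Reg] (hN : 0 < N) (hrd : ∀ r w, w < N → rd r w < N) :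
    GenCircuit where
  nodes := N * KK defs
  gates := gatesL defs N rd cb
  gates_ne := by
    intro h
    have h1 := length_gatesL defs N rd cb
    rw [h] at h1
    have h2 : 0 < KK defs := by
      have := root_lt defs (Classical.arbitrary Reg)
      omega
    have h3 := Nat.mul_pos hN h2
    simp at h1
    omega
  out_lt := by
    intro g hg
    have h1 : g.out ∈ (gatesL defs N rd cb).map Gate.out := List.mem_map_of_mem hg
    rw [map_out_gatesL] at h1
    exact List.mem_range.1 h1
  ins_lt := by
    intro g hg a ha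
    obtain ⟨w, hw, hg⟩ := List.mem_flatMap.1 hg
    have hw := List.mem_range.1 hw
    obtain ⟨j, t, ht, rfl⟩ := mem_siteGates defs rd cb hg
    cases t with
    | bit κ => simp [siteGate, Gate.ins] at ha
    | op o =>
      simp only [siteGate, Op.ins_toGate] at ha
      obtain ⟨u, hu, rfl⟩ := List.mem_map.1 ha
      have key : ∀ v i, v < N → i < KK defs → v * KK defs + i < N * KK defs := by
        intro v i hv hi
        have : (v + 1) * KK defs ≤ N * KK defs := Nat.mul_le_mul_right _ hv
        rw [Nat.succ_mul] at this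
        omega
      rcases u with ⟨r, ρ⟩ | i
      · exact key _ _ (hrd r w hw) (root_lt defs ρ)
      · exact key _ _ hw ((tpl_op defs ht).1 i hu)
  out_nodup := by
    rw [map_out_gatesL]
    exact List.nodup_range
  params_mem := by
    intro g hg α hα
    obtain ⟨w, hw, hg⟩ := List.mem_flatMap.1 hg
    obtain ⟨j, t, ht, rfl⟩ := mem_siteGates defs rd cb hg
    cases t with
    | bit κ =>
      simp only [siteGate, Gate.params, List.mem_singleton] at hα
      subst hα
      split_ifs <;> norm_num
    | op o =>
      simp only [siteGate, Op.params_toGate] at hα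
      exact (tpl_op defs ht).2 α hα

/-- If all gates of a site are satisfied, then the registers obey their definitions at this
site. -/
theorem rel_of_sat {Ω : Type} (E : NSem Rd CB Ω) (e : Ω → ℕ)
    (hrd : ∀ r ω, rd r (e ω) = e (E.rd r ω))
    (hcb : ∀ κ ω, cb κ (e ω) = E.cb κ ω) {ε : ℝ} (hε : ε < 1 / 2) (hdefs : ∀ ρ, (defs ρ).Ok)
    (v : ℕ → ℝ) (hv : ∀ i, 0 ≤ v i ∧ v i ≤ 1) (ω : Ω)
    (hs : ∀ g ∈ siteGates defs rd cb (e ω), g.Sat ε v) (ρ : Reg) :
    (defs ρ).Rel E ε (fun ρ' ω' => v (e ω' * KK defs + root defs ρ')) ρ ω := by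
  set y : NInp Reg Rd CB ⊕ ℕ → ℝ :=
    fun u => v (addr defs rd (e ω) (trN defs (offR defs ρ) u)) with hy
  refine nprog_spec E hε ρ (defs ρ) (hdefs ρ) _ ω y (fun u => hv _) ?_ ?_ ?_ ?_ ?_
  · intro r ρ'
    simp only [hy, trN, addr, hrd]
  · intro ρ'
    simp only [hy, trN, addr]
  · intro κ
    simp only [hy, trN, addr]
    have h1 := hs _ (siteGate_mem defs rd cb (w := e ω) (tpl_bit defs κ))
    simp only [siteGate, Gate.Sat, hcb] at h1
    rw [abs_le] at h1
    cases h2 : E.cb κ ω
    · rw [h2] at h1
      simp only [P330.Rd]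
      simp at h1
      linarith [h1.2]
    · rw [h2] at h1
      simp only [P330.Rd]
      simp at h1
      linarith [h1.1]
  · simp only [hy, Prog.res, trN, addr]
    congr 1
    unfold root
    have := sz_pos defs ρ
    unfold sz at this ⊢
    omega
  · intro k o hk
    have h1 := hs _ (siteGate_mem defs rd cb (w := e ω) (tpl_reg defs ρ k o hk))
    simp only [siteGate] at h1
    rw [Op.sat_toGate, Op.sat_map] at h1
    exact h1

open Classical in
/-- **GBN**: an assignment satisfying all but the fraction `δ` of the gates obeys the network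
except for `δ * K * N` sites. -/
theorem circ_obeys [Nonempty Reg] {Ω : Type} [Fintype Ω] (E : NSem Rd CB Ω) (e : Ω → ℕ)
    (he : Function.Injective e) (heN : ∀ ω, e ω < N)
    (hrd : ∀ r ω, rd r (e ω) = e (E.rd r ω))
    (hcb : ∀ κ ω, cb κ (e ω) = E.cb κ ω) (hN : 0 < N) (hrd' : ∀ r w, w < N → rd r w < N)
    {ε δ : ℝ} (hε : ε < 1 / 2) (hdefs : ∀ ρ, (defs ρ).Ok)
    (x : List ℚ) (hx : IsAssignment (circ defs N rd cb hN hrd') x)
    (hsat : (1 - δ) * (circ defs N rd cb hN hrd').gates.length ≤
      numSat ε (circ defs N rd cb hN hrd') x) :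
    (∀ i, 0 ≤ val x i ∧ val x i ≤ 1) ∧
    ((univ.filter fun ω : Ω => ∃ ρ, ¬ (defs ρ).Rel E ε
      (fun ρ' ω' => val x (e ω' * KK defs + root defs ρ')) ρ ω).card : ℝ)
      ≤ δ * (N * KK defs) := by
  have hv : ∀ i, 0 ≤ val x i ∧ val x i ≤ 1 := by
    intro i
    unfold val
    rw [List.getD_eq_getElem?_getD]
    cases h : x[i]? with
    | none => simp
    | some r =>
      have := hx.2 r (List.mem_of_getElem? h)
      simp only [Option.getD_some]
      exact ⟨by exact_mod_cast this.1, by exact_mod_cast this.2⟩
  refine ⟨hv, ?_⟩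
  set G := circ defs N rd cb hN hrd' with hG
  have hlen : G.gates.length = N * KK defs := length_gatesL defs N rd cb
  have hnd : G.gates.Nodup := List.Nodup.of_map _ G.out_nodup
  -- the unsatisfied gates
  set U : Finset Gate := G.gates.toFinset.filter fun g => ¬ g.Sat ε (val x) with hU
  have hcard : (U.card : ℝ) + numSat ε G x = N * KK defs := by
    have h1 : numSat ε G x = (G.gates.toFinset.filter fun g => g.Sat ε (val x)).card := by
      unfold numSat
      rw [← Set.ncard_coe_finset]
      congr 1
      ext g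
      simp
    rw [h1, hU]
    have h2 := Finset.card_filter_add_card_filter_not (s := G.gates.toFinset)
      (fun g => g.Sat ε (val x))
    rw [List.toFinset_card_of_nodup hnd, hlen] at h2
    have h3 : ((N * KK defs : ℕ) : ℝ) = (N : ℝ) * KK defs := by push_cast; ring
    rw [← h3, ← h2]
    push_cast
    ring
  have hle : (univ.filter fun ω : Ω => ∃ ρ, ¬ (defs ρ).Rel E ε
      (fun ρ' ω' => val x (e ω' * KK defs + root defs ρ')) ρ ω).card ≤ U.card := by
    -- a bad site has an unsatisfied gate
    have hbad : ∀ ω : Ω, (∃ ρ, ¬ (defs ρ).Rel E ε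
        (fun ρ' ω' => val x (e ω' * KK defs + root defs ρ')) ρ ω) →
        ∃ g ∈ siteGates defs rd cb (e ω), ¬ g.Sat ε (val x) := by
      rintro ω ⟨ρ, hρ⟩
      by_contra hcon
      push Not at hcon
      exact hρ (rel_of_sat defs rd cb E e hrd hcb hε hdefs (val x) hv ω hcon ρ)
    have hK : 0 < KK defs := by
      have := root_lt defs (Classical.arbitrary Reg)
      omega
    refine (Finset.card_le_card_of_injOn e (t := U.image fun g => g.out / KK defs)
      ?_ he.injOn).trans Finset.card_image_le
    intro ω hω
    simp only [Finset.coe_filter, Finset.mem_univ, true_and, Set.mem_ofPred_eq] at hω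
    obtain ⟨g, hg, hgs⟩ := hbad ω hω
    simp only [Finset.coe_image, Set.mem_image, Finset.mem_coe]
    refine ⟨g, ?_, ?_⟩
    · rw [hU, Finset.mem_filter, List.mem_toFinset]
      exact ⟨List.mem_flatMap.2 ⟨e ω, List.mem_range.2 (heN ω), hg⟩, hgs⟩
    · obtain ⟨j, t, ht, rfl⟩ := mem_siteGates defs rd cb hg
      rw [out_siteGate]
      have hj : j < KK defs := (List.getElem?_eq_some_iff.1 ht).1
      rw [mul_comm, Nat.mul_add_div hK, Nat.div_eq_of_lt hj, add_zero]
  have h4 : (((univ.filter fun ω : Ω => ∃ ρ, ¬ (defs ρ).Rel E ε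
      (fun ρ' ω' => val x (e ω' * KK defs + root defs ρ')) ρ ω).card : ℕ) : ℝ)
      ≤ U.card := by exact_mod_cast hle
  rw [hlen] at hsat
  push_cast at hsat
  linarith

end circ

end gen

end Vale.Agent.P330.H838
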