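import Vale.Agent.P330.S.Defs

/-!
# A format for finite homogeneous networks

`ND Reg Rd CB`: definition of a register; `NSem`: the meaning of the names of maps of sites and of
hard-wired bits; `ND.Rel`: the register obeys its definition at a site; `NObeys`: all registers
obey their definitions, except for a small fraction of the sites.
-/

namespace Vale.Agent.P330.H838

open Finset PCP.AR
open S (BitDef IsB)

/-- Definition of a register: a Boolean function of bits which are read at moved sites or
hard-wired; a threshold (`1` if the value of the register is more than `α`); the resolvent average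
of a register, with the parameter `lam`, over the neighbours with the names in `l`. -/
inductive ND (Reg Rd CB : Type)
  | bit (B : BitDef Reg Rd CB)
  | thr (α : ℚ) (ρ : Reg)
  | ra (lam : ℚ) (l : List Rd) (ρ : Reg)

/-- The meaning of the names of maps and of hard-wired bits. -/
structure NSem (Rd CB Ω : Type) where
  /-- maps of sites -/
  rd : Rd → Ω → Ω
  /-- hard-wired bits -/
  cb : CB → Ω → Bool

/-- The average of `f` over the neighbours with the names in `l`. -/
noncomputable def NSem.avg {Rd CB Ω : Type} (E : NSem Rd CB Ω) (l : List Rd) (f : Ω → ℝ) (ω : Ω) :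
    ℝ := (l.map fun R => f (E.rd R ω)).sum / l.length

/-- The value of the register `ρ` at the site `ω` obeys its definition, up to `ε`. -/
def ND.Rel {Reg Rd CB Ω : Type} (E : NSem Rd CB Ω) (ε : ℝ) (x : Reg → Ω → ℝ) (ρ : Reg) (ω : Ω) :
    ND Reg Rd CB → Prop
  | .bit B => ∀ b : Bool, (∀ y : B.ι → Bool,
      (∀ i, Sum.elim (fun p => ∀ b', IsB ε b' (x p.2 (E.rd p.1 ω)) → y i = b')
        (fun κ => y i = E.cb κ ω) (B.inp i)) → B.f y = b) → IsB ε b (x ρ ω)
  | .thr α ρ' => ((α : ℝ) + 2 * ε < x ρ' ω → IsB ε true (x ρ ω)) ∧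
      (x ρ' ω < (α : ℝ) - 2 * ε → IsB ε false (x ρ ω))
  | .ra lam l ρ' => |x ρ ω - ((1 - lam) * E.avg l (x ρ) ω + lam * x ρ' ω)| ≤
      (2 * l.length + 3) * ε

/-- The parameters lie in `[0, 1]`. -/
def ND.Ok {Reg Rd CB : Type} : ND Reg Rd CB → Prop
  | .bit _ => True
  | .thr α _ => 0 ≤ α ∧ α ≤ 1
  | .ra lam _ _ => 0 ≤ lam ∧ lam ≤ 1

/-- All values lie in `[0, 1]`, and every register obeys its definition, except for at most the
fraction `β` of the sites. -/
def NObeys {Reg Rd CB Ω : Type} [Fintype Ω] (E : NSem Rd CB Ω) (defs : Reg → ND Reg Rd CB)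
    (ε β : ℝ) (x : Reg → Ω → ℝ) : Prop :=
  (∀ ρ ω, 0 ≤ x ρ ω ∧ x ρ ω ≤ 1) ∧ ∀ ρ, pr (fun ω : Ω => ¬ (defs ρ).Rel E ε x ρ ω) ≤ β

end Vale.Agent.P330.H838
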