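import Vale.Agent.P330.H838.Block
import Vale.Agent.P330.H475.FFam

/-!
# Numbers for the instances of an upper and a lower family

`specOf`, `instOf`: the network of blocks and its instances, from a family `S` of block systems on
words (`SFam`) and a family `F` of modules (`FData`). `numsOf`: their numbers; `qlin_numsOf`: the
number of sites is quasi-linear; `bok_of`.
-/

namespace Vale.Agent.P330.H838

open Finset PCP.AR Vale.Agent.Lib.PolyTime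
open H475 (SFam FData Wd wd toWd wd0)
open H551 (BSpec BInst)

variable (S : SFam) (F : FData S.K S.m) (r : ℕ)

/-- The network of blocks. -/
def specOf : BSpec where
  L := F.L
  fL := F.fL
  dL := F.dL
  k := S.K
  own := S.own
  nO := S.nO
  nO_pos := S.nO_pos
  r := r
  hold := F.hold
  step := F.step
  check := F.check

theorem nonempty_om (a : EndOfLine) : Nonempty (S.Om a) := ⟨(S.num a).symm ⟨0, S.n_pos a⟩⟩

/-- The instances. -/
def instOf (a : EndOfLine) : BInst (specOf S F r) where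
  P := F.P a
  fP := F.fP a
  nP := F.nP a
  Z := F.Z a
  fZ := F.fZ a
  nZ := F.nZ a
  Bl := Wd (S.m a)
  enc := F.enc a
  Om := S.Om a
  fOm := S.fOm a
  nOm := nonempty_om S a
  Cf := S.Cf a
  sys := S.sys a
  sO := S.sO a
  sP := F.sP a
  sZ := F.sZ a
  rdH := F.rdH a
  rdS := F.rdS a
  rdC := F.rdC a
  cbH κ h := F.cbH a (S.pub a h) κ
  cbS z κ h := F.cbS a z (S.pub a h) κ
  cbC κ h := F.cbC a (S.pub a h) κ

variable {S F} (U : F.Nums)

/-- A map of pairs on the numbers of pairs. -/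
def prN (nZ : ℕ) (f : ℕ × ℕ → ℕ × ℕ) (w : ℕ) : ℕ :=
  (f (w / nZ, w % nZ)).2 + nZ * (f (w / nZ, w % nZ)).1

theorem prN_eq {A B : Type} {m n : ℕ} (e : A ≃ Fin m) (f : B ≃ Fin n) (g : A × B → A × B)
    (gN : ℕ × ℕ → ℕ × ℕ)
    (hg : ∀ p z, gN ((e p : ℕ), (f z : ℕ)) = ((e (g (p, z)).1 : ℕ), (f (g (p, z)).2 : ℕ)))
    (w : A × B) : prN n gN (pairE e f w) = pairE e f (g w) := by
  unfold prN
  rw [pairE_mod, pairE_div, hg, pairE_apply]

theorem prN_pt {α : Type*} [Enc α] {nZ : α → ℕ} (hZ : PT ∅ nZ) {f : α → ℕ × ℕ → ℕ × ℕ}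
    (hf : PT ∅ fun q : α × ℕ × ℕ => f q.1 q.2) :
    PT ∅ fun q : α × ℕ => prN (nZ q.1) (f q.1) q.2 := by
  have hZ' : PT ∅ fun q : α × ℕ => nZ q.1 := hZ.comp PT.fst'
  have hm := PT.mod PT.snd' hZ'
  have hd := PT.div PT.snd' hZ'
  have h1 : PT ∅ fun q : α × ℕ => f q.1 (q.2 / nZ q.1, q.2 % nZ q.1) :=
    hf.comp (PT.pair PT.fst' (PT.pair hd hm))
  exact (h1.snd).add (hZ'.mul h1.fst)

theorem cbN_aux {A B : Type} {m n : ℕ} (c : EndOfLine × Word × ℕ × ℕ → Bool) (a : EndOfLine)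
    {u u' : Word} (hu : u = u') (e : A ≃ Fin m) (f : B ≃ Fin n) (w : A × B) :
    c (a, u, (pairE e f w : ℕ) / n, (pairE e f w : ℕ) % n) =
      c (a, u', (e w.1 : ℕ), (f w.2 : ℕ)) := by
  rw [pairE_mod, pairE_div, hu]

/-- **The numbers.** -/
def numsOf : BNums (instOf S F r) where
  NO := S.n
  ptO := S.n_pt
  NP := U.nP
  ptP := U.nP_pt
  NZ := U.nZ
  ptZ := U.nZ_pt
  eO := S.num
  eP := U.eP
  eZ := U.eZ
  wrN a i h := S.wrN i (a, h)
  wrN_eq a i h := S.wrN_eq i a h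
  wrN_pt i := S.wrN_pt i
  sON a i h := S.sON i (a, h)
  sON_eq a i h := S.sON_eq i a h
  sON_pt i := S.sON_pt i
  sPN a i h := U.sPN i (a, h)
  sPN_eq a i h := U.sPN_eq i a h
  sPN_pt i := U.sPN_pt i
  sZN a i h := U.sZN i (a, h)
  sZN_eq a i h := U.sZN_eq i a h
  sZN_pt i := U.sZN_pt i
  rdHN a R := prN (U.nZ a) fun p => U.rdHN R (a, p)
  rdHN_eq a R w := prN_eq (U.eP a) (U.eZ a) (F.rdH a R) _ (fun p z => U.rdHN_eq R a p z) w
  rdHN_pt R := prN_pt (f := fun a p => U.rdHN R (a, p)) U.nZ_pt (U.rdHN_pt R)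
  rdSN a R := prN (U.nZ a) fun p => U.rdSN R (a, p)
  rdSN_eq a R w := prN_eq (U.eP a) (U.eZ a) (F.rdS a R) _ (fun p z => U.rdSN_eq R a p z) w
  rdSN_pt R := prN_pt (f := fun a p => U.rdSN R (a, p)) U.nZ_pt (U.rdSN_pt R)
  rdCN a R := prN (U.nZ a) fun p => U.rdCN R (a, p)
  rdCN_eq a R w := prN_eq (U.eP a) (U.eZ a) (F.rdC a R) _ (fun p z => U.rdCN_eq R a p z) w
  rdCN_pt R := prN_pt (f := fun a p => U.rdCN R (a, p)) U.nZ_pt (U.rdCN_pt R)
  cbHN a κ h w := U.cbHN κ (a, S.pubN (a, h), w / U.nZ a, w % U.nZ a)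
  cbHN_eq a κ h w := (cbN_aux (U.cbHN κ) a (S.pubN_eq a h) (U.eP a) (U.eZ a) w).trans
    (U.cbHN_eq κ a _ w.1 w.2)
  cbHN_pt κ := by
    have hZ : PT ∅ fun q : EndOfLine × (ℕ × ℕ) => U.nZ q.1 := U.nZ_pt.comp PT.fst'
    exact (U.cbHN_pt κ).comp (PT.pair PT.fst' (PT.pair (S.pubN_pt.comp
      (PT.pair PT.fst' PT.snd'.fst)) (PT.pair (PT.div PT.snd'.snd hZ) (PT.mod PT.snd'.snd hZ))))
  cbSN a z κ h w := U.cbSN z κ (a, S.pubN (a, h), w / U.nZ a, w % U.nZ a)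
  cbSN_eq a z κ h w := (cbN_aux (U.cbSN z κ) a (S.pubN_eq a h) (U.eP a) (U.eZ a) w).trans
    (U.cbSN_eq z κ a _ w.1 w.2)
  cbSN_pt z κ := by
    have hZ : PT ∅ fun q : EndOfLine × (ℕ × ℕ) => U.nZ q.1 := U.nZ_pt.comp PT.fst'
    exact (U.cbSN_pt z κ).comp (PT.pair PT.fst' (PT.pair (S.pubN_pt.comp
      (PT.pair PT.fst' PT.snd'.fst)) (PT.pair (PT.div PT.snd'.snd hZ) (PT.mod PT.snd'.snd hZ))))
  cbCN a κ h w := U.cbCN κ (a, S.pubN (a, h), w / U.nZ a, w % U.nZ a)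
  cbCN_eq a κ h w := (cbN_aux (U.cbCN κ) a (S.pubN_eq a h) (U.eP a) (U.eZ a) w).trans
    (U.cbCN_eq κ a _ w.1 w.2)
  cbCN_pt κ := by
    have hZ : PT ∅ fun q : EndOfLine × (ℕ × ℕ) => U.nZ q.1 := U.nZ_pt.comp PT.fst'
    exact (U.cbCN_pt κ).comp (PT.pair PT.fst' (PT.pair (S.pubN_pt.comp
      (PT.pair PT.fst' PT.snd'.fst)) (PT.pair (PT.div PT.snd'.snd hZ) (PT.mod PT.snd'.snd hZ))))
  stN a l h p := U.encN l (a, S.w0N (a, h), p)
  stN_eq a l h p := (congrArg (fun u => U.encN l (a, u, (U.eP a p : ℕ))) (S.w0N_eq a h)).trans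
    (U.encN_eq l a _ p)
  stN_pt l := (U.encN_pt l).comp (PT.pair PT.fst' (PT.pair (S.w0N_pt.comp
    (PT.pair PT.fst' PT.snd'.fst)) PT.snd'.snd))

/-- **The number of sites is quasi-linear.** -/
theorem qlin_numsOf : QLin fun a => S.n a * (U.nP a * U.nZ a) := by
  obtain ⟨c, hc⟩ := U.size
  exact S.n_qlin.mul (((S.m_qlog.add (QLog.const 2)).pow c).mono hc)

end Vale.Agent.P330.H838
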